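import Vale.Agent.P363.R.B5.h924.Final
import Vale.Agent.P363.R2.h518.HydroInst

/-! Block B5.3: the multipole bound for the ion. -/

namespace Vale.Agent.P363.R.B5

open MeasureTheory Filter Topology
open Vale.Agent.P363.Stmt
open Vale.Agent.P363.H382
open Vale.Agent.P363.H943
open Vale.Agent.P363.R801
open Vale.Agent.P363.R.Sob
open Vale.Agent.P363.R.Top
open Vale.Agent.P363.B5
open scoped ContDiff ENNReal ComplexConjugate

noncomputable section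

variable {n : ℕ}

/-! ### the weights `|y|²/(1+ε|y|²)` -/

/-- bounded smooth approximation of `|y|²` -/
def Wq (ε : ℝ) (y : R3) : ℝ := ‖y‖ ^ 2 / (1 + ε * ‖y‖ ^ 2)

theorem Wq_nonneg {ε : ℝ} (hε : 0 ≤ ε) (y : R3) : 0 ≤ Wq ε y := by
  unfold Wq
  positivity

theorem Wq_le {ε : ℝ} (hε : 0 ≤ ε) (y : R3) : Wq ε y ≤ ‖y‖ ^ 2 := by
  unfold Wq
  have : 0 ≤ ε * ‖y‖ ^ 2 := by positivity
  exact div_le_self (by positivity) (by linarith)

theorem Wq_le' {ε : ℝ} (hε : 0 < ε) (y : R3) : Wq ε y ≤ 1 / ε := by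
  unfold Wq
  have : 0 ≤ ε * ‖y‖ ^ 2 := by positivity
  rw [div_le_div_iff₀ (by linarith) hε]
  linarith

theorem contDiff_Wq {ε : ℝ} (hε : 0 ≤ ε) : ContDiff ℝ ∞ (Wq ε) := by
  unfold Wq
  refine (contDiff_norm_sq ℝ).div (contDiff_const.add (contDiff_const.mul (contDiff_norm_sq ℝ)))
    fun y => ?_
  positivity

theorem norm_fderiv_Wq {ε : ℝ} (hε : 0 ≤ ε) (y : R3) :
    ‖fderiv ℝ (Wq ε) y‖ ≤ 2 * ‖y‖ / (1 + ε * ‖y‖ ^ 2) := by
  have hpos : 0 < 1 + ε * ‖y‖ ^ 2 := by positivity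
  have h1 : HasFDerivAt (fun z : R3 => ‖z‖ ^ 2) (2 • (innerSL ℝ y)) y :=
    (hasStrictFDerivAt_norm_sq y).hasFDerivAt
  have h2 : HasDerivAt (fun t : ℝ => t / (1 + ε * t)) (1 / (1 + ε * ‖y‖ ^ 2) ^ 2) (‖y‖ ^ 2) := by
    have h3 := (hasDerivAt_id (‖y‖ ^ 2)).div
      (((hasDerivAt_id (‖y‖ ^ 2)).const_mul ε).const_add 1) hpos.ne'
    refine h3.congr_deriv ?_
    simp only [id]
    congr 1
    ring
  have h4 := h2.comp_hasFDerivAt y h1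
  have h5 : fderiv ℝ (Wq ε) y = _ := h4.fderiv
  rw [h5, norm_smul]
  have h6 : ‖(2 • (innerSL ℝ y) : R3 →L[ℝ] ℝ)‖ ≤ 2 * ‖y‖ := by
    rw [two_smul]
    refine (norm_add_le _ _).trans ?_
    rw [innerSL_apply_norm]
    linarith
  rw [Real.norm_eq_abs, abs_of_pos (by positivity)]
  calc 1 / (1 + ε * ‖y‖ ^ 2) ^ 2 * ‖(2 • (innerSL ℝ y) : R3 →L[ℝ] ℝ)‖
      ≤ 1 / (1 + ε * ‖y‖ ^ 2) ^ 2 * (2 * ‖y‖) := by gcongr
    _ ≤ 1 / (1 + ε * ‖y‖ ^ 2) * (2 * ‖y‖) := by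
        gcongr
        have : 0 ≤ ε * ‖y‖ ^ 2 := by positivity
        nlinarith
    _ = _ := by ring

theorem norm_fderiv_Wq_le {ε : ℝ} (hε : 0 ≤ ε) (y : R3) : ‖fderiv ℝ (Wq ε) y‖ ≤ 2 * ‖y‖ := by
  refine (norm_fderiv_Wq hε y).trans ?_
  have : 0 ≤ ε * ‖y‖ ^ 2 := by positivity
  exact div_le_self (by positivity) (by linarith)

theorem wt_Wq {ε : ℝ} (hε : 0 < ε) : Wt (Wq ε) := by
  refine ⟨contDiff_Wq hε.le, ⟨1 / ε, fun y => ?_⟩, ⟨1 + 1 / ε, fun y => ?_⟩⟩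
  · rw [abs_of_nonneg (Wq_nonneg hε.le y)]
    exact Wq_le' hε y
  · refine (norm_fderiv_Wq hε.le y).trans ?_
    have hpos : 0 < 1 + ε * ‖y‖ ^ 2 := by positivity
    rw [div_le_iff₀ hpos]
    have h1 : 2 * ‖y‖ ≤ 1 + ‖y‖ ^ 2 := by nlinarith [sq_nonneg (‖y‖ - 1)]
    have h2 : (1 + 1 / ε) * (1 + ε * ‖y‖ ^ 2) = 1 + ‖y‖ ^ 2 + (1 / ε + ε * ‖y‖ ^ 2) := by
      field_simp
      ring
    rw [h2]
    have : 0 ≤ 1 / ε + ε * ‖y‖ ^ 2 := by positivity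
    linarith

theorem tendsto_Wq (y : R3) :
    Tendsto (fun j : ℕ => Wq (1 / ((j : ℝ) + 1)) y) atTop (𝓝 (‖y‖ ^ 2)) := by
  have h1 : Tendsto (fun j : ℕ => 1 / ((j : ℝ) + 1)) atTop (𝓝 0) :=
    tendsto_one_div_add_atTop_nhds_zero_nat
  have h2 : Tendsto (fun j : ℕ => 1 + 1 / ((j : ℝ) + 1) * ‖y‖ ^ 2) atTop (𝓝 1) := by
    simpa using (h1.mul_const (‖y‖ ^ 2)).const_add 1
  have h4 := (tendsto_const_nhds (x := ‖y‖ ^ 2)).div h2 one_ne_zero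
  rw [div_one] at h4
  exact h4

/-! ### Hardy's inequality for `W Φ` -/

theorem hardy_W {lam : ℝ} (hlam : 0 ≤ lam) {Φ : ElectronState (n + 1)}
    (h : IsGroundState (pot lam) Φ) (hE : energy (pot lam) Φ ≤ 0) {W : R3 → ℝ} (hW : Wt W)
    (x : R3) :
    (∀ s, Integrable fun z : Conf (n + 1) =>
      W (z 0) ^ 2 / ‖z 0 - x‖ ^ 2 * ‖Φ.amp s z‖ ^ 2) ∧
    ∑ s, ∫ z : Conf (n + 1), W (z 0) ^ 2 / ‖z 0 - x‖ ^ 2 * ‖Φ.amp s z‖ ^ 2 ≤
      64 * (n + 1) * (∑ s, ∫ z : Conf (n + 1), W (z 0) ^ 2 * ‖Φ.amp s z‖ ^ 2) +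
        8 * gradT W Φ := by
  set u := mulW hW (PState.ofES Φ) with hu
  have hH : ∀ s, Integrable (fun z => ‖u.amp s z‖ ^ 2 / ‖z 0 - x‖ ^ 2) ∧
      ∫ z, ‖u.amp s z‖ ^ 2 / ‖z 0 - x‖ ^ 2 ≤ 4 * ∑ k, ∫ z, ‖u.grad s 0 k z‖ ^ 2 := by
    intro s
    have := hardy (μ := (volume : Measure (Conf (n + 1)))) (prj 0) x (fun k => dir 0 k)
      (fun k => prj_dir 0 k) (u.amp_memLp s) (fun k => u.grad_memLp s 0 k)
      (fun k => u.grad_wd s 0 k)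
    simpa only [prj, ContinuousLinearMap.proj_apply] using this
  have e0 : ∀ s z, ‖u.amp s z‖ ^ 2 = W (z 0) ^ 2 * ‖Φ.amp s z‖ ^ 2 := by
    intro s z
    simp only [hu, mulW_amp, norm_mul, Complex.norm_real, mul_pow, Real.norm_eq_abs, sq_abs]
    rfl
  have e1 : ∀ s z, ‖u.amp s z‖ ^ 2 / ‖z 0 - x‖ ^ 2 =
      W (z 0) ^ 2 / ‖z 0 - x‖ ^ 2 * ‖Φ.amp s z‖ ^ 2 := by
    intro s z
    rw [e0]
    ring
  simp only [e1] at hH
  refine ⟨fun s => (hH s).1, ?_⟩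
  have h1 : ∑ s, ∫ z : Conf (n + 1), W (z 0) ^ 2 / ‖z 0 - x‖ ^ 2 * ‖Φ.amp s z‖ ^ 2 ≤
      4 * u.kin0 := by
    unfold PState.kin0
    rw [Finset.mul_sum]
    exact Finset.sum_le_sum fun s _ => (hH s).2
  have h2 := kin0_le u
  have h3 := en_ge u hlam
  have h4 := ims h hW
  rw [← hu] at h4
  have h5 : u.nsq = ∑ s, ∫ z : Conf (n + 1), W (z 0) ^ 2 * ‖Φ.amp s z‖ ^ 2 := by
    unfold PState.nsq
    simp only [e0]
  have h6 : 0 ≤ u.nsq := by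
    unfold PState.nsq
    positivity
  rw [← h5]
  have h7 : energy (pot lam) Φ * u.nsq ≤ 0 := mul_nonpos_of_nonpos_of_nonneg hE h6
  nlinarith

/-- the moment bound together with Hardy's inequality, for the electron `0`. -/
theorem moment_hardy {lam : ℝ} (hlam : 0 ≤ lam) {Φ : ElectronState (n + 1)}
    (h : IsGroundState (pot lam) Φ) (hE : energy (pot lam) Φ ≤ 0) {M2 M4 : ℝ}
    (i2 : ∀ s, Integrable fun z : Conf (n + 1) => ‖z 0‖ ^ 2 * ‖Φ.amp s z‖ ^ 2)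
    (i4 : ∀ s, Integrable fun z : Conf (n + 1) => ‖z 0‖ ^ 4 * ‖Φ.amp s z‖ ^ 2)
    (m2 : ∑ s, ∫ z : Conf (n + 1), ‖z 0‖ ^ 2 * ‖Φ.amp s z‖ ^ 2 ≤ M2)
    (m4 : ∑ s, ∫ z : Conf (n + 1), ‖z 0‖ ^ 4 * ‖Φ.amp s z‖ ^ 2 ≤ M4) (x : R3) (s : Spn (n + 1)) :
    Integrable (fun z : Conf (n + 1) => ‖z 0‖ ^ 4 / ‖z 0 - x‖ ^ 2 * ‖Φ.amp s z‖ ^ 2) ∧
      ∫ z : Conf (n + 1), ‖z 0‖ ^ 4 / ‖z 0 - x‖ ^ 2 * ‖Φ.amp s z‖ ^ 2 ≤
        64 * (n + 1) * M4 + 32 * M2 := by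
  have hbd : ∀ j : ℕ, ∫ z : Conf (n + 1), Wq (1 / ((j : ℝ) + 1)) (z 0) ^ 2 / ‖z 0 - x‖ ^ 2 *
      ‖Φ.amp s z‖ ^ 2 ≤ 64 * (n + 1) * M4 + 32 * M2 := by
    intro j
    have hε : (0 : ℝ) < 1 / ((j : ℝ) + 1) := by positivity
    have hW := wt_Wq hε
    have h1 := (hardy_W hlam h hE hW x).2
    have h2 : ∫ z : Conf (n + 1), Wq (1 / ((j : ℝ) + 1)) (z 0) ^ 2 / ‖z 0 - x‖ ^ 2 *
        ‖Φ.amp s z‖ ^ 2 ≤ ∑ s, ∫ z : Conf (n + 1), Wq (1 / ((j : ℝ) + 1)) (z 0) ^ 2 /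
          ‖z 0 - x‖ ^ 2 * ‖Φ.amp s z‖ ^ 2 :=
      Finset.single_le_sum (f := fun s => ∫ z : Conf (n + 1), Wq (1 / ((j : ℝ) + 1)) (z 0) ^ 2 /
          ‖z 0 - x‖ ^ 2 * ‖Φ.amp s z‖ ^ 2) (fun s _ => integral_nonneg fun z => by positivity)
        (Finset.mem_univ s)
    have h3 : ∑ s, ∫ z : Conf (n + 1), Wq (1 / ((j : ℝ) + 1)) (z 0) ^ 2 * ‖Φ.amp s z‖ ^ 2 ≤
        M4 := by
      refine (Finset.sum_le_sum fun s _ => ?_).trans m4
      refine integral_mono_ae ?_ (i4 s) (Eventually.of_forall fun z => ?_)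
      · exact int_bdd_sq Φ s (v := fun y => Wq (1 / ((j : ℝ) + 1)) y ^ 2)
          (hW.smooth.continuous.pow 2) (C := wc hW ^ 2) fun y => by
            rw [abs_of_nonneg (sq_nonneg _), ← sq_abs]
            exact pow_le_pow_left₀ (abs_nonneg _) (wc_bdd hW y) 2
      · simp only
        have h4 := pow_le_pow_left₀ (Wq_nonneg hε.le (z 0)) (Wq_le hε.le (z 0)) 2
        have h5 : (‖z 0‖ ^ 2) ^ 2 = ‖z 0‖ ^ 4 := by ring
        rw [h5] at h4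
        gcongr
    have h6 : gradT (Wq (1 / ((j : ℝ) + 1))) Φ ≤ 4 * M2 := by
      unfold gradT
      have h7 : ∑ s, ∫ z : Conf (n + 1), ‖fderiv ℝ (Wq (1 / ((j : ℝ) + 1))) (z 0)‖ ^ 2 *
          ‖Φ.amp s z‖ ^ 2 ≤ ∑ s, 4 * ∫ z : Conf (n + 1), ‖z 0‖ ^ 2 * ‖Φ.amp s z‖ ^ 2 := by
        refine Finset.sum_le_sum fun s _ => ?_
        rw [← integral_const_mul]
        refine integral_mono_ae ?_ ((i2 s).const_mul 4) (Eventually.of_forall fun z => ?_)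
        · exact int_bdd_sq Φ s (v := fun y => ‖fderiv ℝ (Wq (1 / ((j : ℝ) + 1))) y‖ ^ 2)
            ((hW.smooth.continuous_fderiv (by simp)).norm.pow 2) (C := wc hW ^ 2) fun y => by
              rw [abs_of_nonneg (sq_nonneg _)]
              exact pow_le_pow_left₀ (norm_nonneg _) (wc_gbdd hW y) 2
        · simp only
          have h4 := pow_le_pow_left₀ (norm_nonneg _) (norm_fderiv_Wq_le hε.le (z 0)) 2
          rw [mul_pow] at h4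
          calc ‖fderiv ℝ (Wq (1 / ((j : ℝ) + 1))) (z 0)‖ ^ 2 * ‖Φ.amp s z‖ ^ 2
              ≤ (2 ^ 2 * ‖z 0‖ ^ 2) * ‖Φ.amp s z‖ ^ 2 := by gcongr
            _ = _ := by ring
      rw [← Finset.mul_sum] at h7
      linarith
    have h8 : (0 : ℝ) ≤ 64 * ((n : ℝ) + 1) := by positivity
    have h9 := mul_le_mul_of_nonneg_left h3 h8
    linarith
  refine fatou_real (fun j => (hardy_W hlam h hE
    (wt_Wq (show (0 : ℝ) < 1 / ((j : ℝ) + 1) by positivity)) x).1 s)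
    (fun j => Eventually.of_forall fun z => by positivity) hbd
    (Eventually.of_forall fun z => ?_)
  refine Tendsto.mul_const _ (Tendsto.div_const ?_ _)
  have h1 := (tendsto_Wq (z 0)).pow 2
  have h2 : (‖z 0‖ ^ 2) ^ 2 = ‖z 0‖ ^ 4 := by ring
  rwa [h2] at h1

/-- pointwise multipole estimate. -/
theorem mult_pw {x : R3} (hx : 0 < ‖x‖) (y : R3) :
    (1 / ‖x - y‖ - 1 / ‖x‖) ^ 2 ≤
      2 * ((‖x‖ ^ 2)⁻¹) ^ 2 * (‖y‖ ^ 2 + ‖y‖ ^ 4 / ‖y - x‖ ^ 2) := by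
  rw [norm_sub_rev y x]
  rcases (norm_nonneg (x - y)).eq_or_lt with h0 | h0
  · rw [← h0]
    have hxy : x = y := by
      rw [← sub_eq_zero, ← norm_eq_zero]
      exact h0.symm
    subst hxy
    have e1 : (1 / (0 : ℝ) - 1 / ‖x‖) ^ 2 = ((‖x‖ ^ 2)⁻¹) ^ 2 * ‖x‖ ^ 2 := by
      field_simp
      ring
    rw [e1]
    have h1 : 0 ≤ ((‖x‖ ^ 2)⁻¹) ^ 2 * ‖x‖ ^ 2 := by positivity
    have h2 : ‖x‖ ^ 4 / (0 : ℝ) ^ 2 = 0 := by norm_num
    rw [h2, add_zero]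
    linarith
  · have key : |1 / ‖x - y‖ - 1 / ‖x‖| ≤ (‖x‖ ^ 2)⁻¹ * (‖y‖ + ‖y‖ ^ 2 / ‖x - y‖) := by
      have e1 : 1 / ‖x - y‖ - 1 / ‖x‖ = (‖x‖ - ‖x - y‖) / (‖x - y‖ * ‖x‖) := by
        field_simp
      have h1 : |‖x‖ - ‖x - y‖| ≤ ‖y‖ := by
        have := abs_norm_sub_norm_le x (x - y)
        simpa using this
      have h2 : ‖x‖ ≤ ‖x - y‖ + ‖y‖ := by
        have := norm_add_le (x - y) y
        simpa using this
      rw [e1, abs_div, abs_of_pos (mul_pos h0 hx), div_le_iff₀ (mul_pos h0 hx)]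
      have e2 : (‖x‖ ^ 2)⁻¹ * (‖y‖ + ‖y‖ ^ 2 / ‖x - y‖) * (‖x - y‖ * ‖x‖) =
          ‖y‖ * ((‖x - y‖ + ‖y‖) / ‖x‖) := by
        field_simp
      rw [e2]
      refine h1.trans ?_
      have h3 : 1 ≤ (‖x - y‖ + ‖y‖) / ‖x‖ := by
        rw [le_div_iff₀ hx]
        linarith
      exact le_mul_of_one_le_right (norm_nonneg _) h3
    rw [← sq_abs]
    refine (pow_le_pow_left₀ (abs_nonneg _) key 2).trans ?_
    rw [mul_pow]
    have h4 : (‖y‖ + ‖y‖ ^ 2 / ‖x - y‖) ^ 2 ≤ 2 * (‖y‖ ^ 2 + ‖y‖ ^ 4 / ‖x - y‖ ^ 2) := by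
      have h5 : ‖y‖ ^ 4 / ‖x - y‖ ^ 2 = (‖y‖ ^ 2 / ‖x - y‖) ^ 2 := by
        rw [div_pow]
        ring
      rw [h5]
      nlinarith [sq_nonneg (‖y‖ - ‖y‖ ^ 2 / ‖x - y‖)]
    have h6 : 0 ≤ ((‖x‖ ^ 2)⁻¹) ^ 2 := by positivity
    calc ((‖x‖ ^ 2)⁻¹) ^ 2 * (‖y‖ + ‖y‖ ^ 2 / ‖x - y‖) ^ 2
        ≤ ((‖x‖ ^ 2)⁻¹) ^ 2 * (2 * (‖y‖ ^ 2 + ‖y‖ ^ 4 / ‖x - y‖ ^ 2)) :=
          mul_le_mul_of_nonneg_left h4 h6
      _ = _ := by ring

theorem mult_sq_le {x : R3} (hx : 0 < ‖x‖) (y : Conf 4) :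
    mult x y ^ 2 ≤ 8 * ((‖x‖ ^ 2)⁻¹) ^ 2 * ∑ j, (‖y j‖ ^ 2 + ‖y j‖ ^ 4 / ‖y j - x‖ ^ 2) := by
  have e : mult x y = ∑ j, (1 / ‖x - y j‖ - 1 / ‖x‖) := by
    unfold mult
    rw [Finset.sum_sub_distrib]
    simp
    ring
  rw [e]
  have h1 := sq_sum_le_card_mul_sum_sq (s := (Finset.univ : Finset (Fin 4)))
    (f := fun j => 1 / ‖x - y j‖ - 1 / ‖x‖)
  refine h1.trans ?_
  rw [Finset.card_univ, Fintype.card_fin]
  push_cast
  have h2 : ∑ j, (1 / ‖x - y j‖ - 1 / ‖x‖) ^ 2 ≤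
      ∑ j, 2 * ((‖x‖ ^ 2)⁻¹) ^ 2 * (‖y j‖ ^ 2 + ‖y j‖ ^ 4 / ‖y j - x‖ ^ 2) :=
    Finset.sum_le_sum fun j _ => mult_pw hx (y j)
  rw [← Finset.mul_sum] at h2
  linarith

/-! ### moments of the ion -/

/-- integrability of `v(z₀)|Ψ|²` from integrability of `v n`. -/
theorem lift_moment (Ψ : ElectronState (n + 1)) {v : R3 → ℝ} (hv : Continuous v)
    (h0 : ∀ x, 0 ≤ v x) (hi : Integrable fun x => v x * density Ψ x) (s : Spn (n + 1)) :
    Integrable (fun z : Conf (n + 1) => v (z 0) * ‖Ψ.amp s z‖ ^ 2) := by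
  have hvj : ∀ j : ℕ, Continuous fun x => min (v x) (j : ℝ) := fun j => hv.min continuous_const
  have hb : ∀ (j : ℕ) (x : R3), |min (v x) (j : ℝ)| ≤ (j : ℝ) := fun j x => by
    rw [abs_of_nonneg (le_min (h0 x) (Nat.cast_nonneg j))]
    exact min_le_right _ _
  have hij : ∀ (j : ℕ) (s : Spn (n + 1)),
      Integrable (fun z : Conf (n + 1) => min (v (z 0)) (j : ℝ) * ‖Ψ.amp s z‖ ^ 2) := fun j s =>
    int_bdd_sq Ψ s (hvj j) (hb j)
  refine (fatou_real (B := ∫ x, v x * density Ψ x) (fun j => hij j s)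
    (fun j => Eventually.of_forall fun z => ?_) (fun j => ?_)
    (Eventually.of_forall fun z => ?_)).1
  · have := h0 (z 0)
    positivity
  · have e := potE_zero_eq Ψ (fun x => min (v x) (j : ℝ)) (hij j)
    have h1 : ∫ z : Conf (n + 1), min (v (z 0)) (j : ℝ) * ‖Ψ.amp s z‖ ^ 2 ≤
        potE (fun z : Conf (n + 1) => min (v (z 0)) (j : ℝ)) Ψ := by
      unfold potE
      refine Finset.single_le_sum (f := fun s => ∫ z : Conf (n + 1),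
        min (v (z 0)) (j : ℝ) * ‖Ψ.amp s z‖ ^ 2) (fun s _ => integral_nonneg fun z => ?_)
        (Finset.mem_univ s)
      have := h0 (z 0)
      simp only [Pi.zero_apply]
      positivity
    have h2 : 0 ≤ potE (fun z : Conf (n + 1) => min (v (z 0)) (j : ℝ)) Ψ := by
      unfold potE
      refine Finset.sum_nonneg fun s _ => integral_nonneg fun z => ?_
      have := h0 (z 0)
      simp only [Pi.zero_apply]
      positivity
    have h3 : potE (fun z : Conf (n + 1) => min (v (z 0)) (j : ℝ)) Ψ ≤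
        ((n : ℝ) + 1) * potE (fun z : Conf (n + 1) => min (v (z 0)) (j : ℝ)) Ψ := by
      refine le_mul_of_one_le_left h2 ?_
      have : (0 : ℝ) ≤ n := Nat.cast_nonneg n
      linarith
    refine h1.trans (h3.trans ?_)
    rw [e]
    refine integral_mono (integrable_mul_density Ψ _ (hij j)) hi fun x => ?_
    exact mul_le_mul_of_nonneg_right (min_le_left _ _) (density_nonneg Ψ x)
  · refine Tendsto.mul_const _ ?_
    refine tendsto_const_nhds.congr' ?_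
    obtain ⟨N, hN⟩ := exists_nat_ge (v (z 0))
    filter_upwards [eventually_ge_atTop N] with j hj
    have : v (z 0) ≤ (j : ℝ) := hN.trans (by exact_mod_cast hj)
    exact (min_eq_left this).symm

/-- moments of the density of an ion with sufficient ionisation energy. -/
theorem ion_moment (A : ℝ) (p : ℕ) : ∃ M : ℝ, 0 ≤ M ∧ ∀ lam, 0 ≤ lam →
    ∀ Φ : ElectronState (n + 1), IsGroundState (pot lam) Φ → energy (pot lam) Φ ≤ 0 →
      (n + 1) * (4 * (n + 1) + 4) ≤ A →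
      (∃ E' : ℝ, (∀ χ : ElectronState n, E' * normSq χ ≤ energy (pot lam) χ) ∧
        2 / 25 ≤ E' - energy (pot lam) Φ) →
      (∀ s, Integrable fun z : Conf (n + 1) => ‖z 0‖ ^ p * ‖Φ.amp s z‖ ^ 2) ∧
      ∑ s, ∫ z : Conf (n + 1), ‖z 0‖ ^ p * ‖Φ.amp s z‖ ^ 2 ≤ M := by
  obtain ⟨C, hC⟩ := moments A p
  refine ⟨max C 0, le_max_right _ _, fun lam hl Φ hΦ hE hA hE' => ?_⟩
  obtain ⟨E', hE1, hE2⟩ := hE'
  have hn1 := hΦ.1
  have hcast : (0 : ℝ) ≤ n := Nat.cast_nonneg n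
  have h1 : ∫ x, density Φ x ≤ A := by
    rw [H382.integral_density, hn1]
    nlinarith
  have h2 := (inv_density_le hl hn1 hE).trans hA
  have h3 := hC (density Φ) (Eventually.of_forall fun x => density_nonneg Φ x)
    (integrable_density Φ) (inv_density_int Φ) h1 h2 (fun W hW => by
      refine le_trans ?_ (weighted hl hΦ hE1 hW)
      have hWc : Continuous W := hW.smooth.continuous
      have b1 : ∀ x, ‖W x ^ 2‖ ≤ wc hW ^ 2 := fun x => by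
        rw [Real.norm_eq_abs, abs_of_nonneg (sq_nonneg _), ← sq_abs]
        exact pow_le_pow_left₀ (abs_nonneg _) (wc_bdd hW x) 2
      have i1 : Integrable fun x => W x ^ 2 * density Φ x :=
        (integrable_density Φ).bdd_mul (hWc.pow 2).aestronglyMeasurable (Eventually.of_forall b1)
      have i2 : Integrable fun x => W x ^ 2 * (density Φ x / ‖x‖) :=
        (inv_density_int Φ).bdd_mul (hWc.pow 2).aestronglyMeasurable (Eventually.of_forall b1)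
      have i3 : ∀ c : ℝ, Integrable fun x => (c - 1 / ‖x‖) * W x ^ 2 * density Φ x := fun c => by
        refine ((i1.const_mul c).sub i2).congr (Eventually.of_forall fun x => ?_)
        simp only [Pi.sub_apply]
        ring
      refine integral_mono (i3 _) (i3 _) fun x => ?_
      have h4 : 0 ≤ W x ^ 2 * density Φ x := mul_nonneg (sq_nonneg _) (density_nonneg Φ x)
      simp only
      nlinarith)
  have hv : Continuous fun x : R3 => ‖x‖ ^ p := continuous_norm.pow p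
  have hint : ∀ s, Integrable fun z : Conf (n + 1) => ‖z 0‖ ^ p * ‖Φ.amp s z‖ ^ 2 :=
    lift_moment Φ hv (fun x => by positivity) h3.1
  refine ⟨hint, ?_⟩
  have e := potE_zero_eq Φ (fun x => ‖x‖ ^ p) hint
  have h4 : 0 ≤ potE (fun z : Conf (n + 1) => ‖z 0‖ ^ p) Φ := by
    unfold potE
    positivity
  have h5 : potE (fun z : Conf (n + 1) => ‖z 0‖ ^ p) Φ ≤
      ((n : ℝ) + 1) * potE (fun z : Conf (n + 1) => ‖z 0‖ ^ p) Φ :=
    le_mul_of_one_le_left h4 (by linarith)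
  exact h5.trans ((e.le.trans h3.2).trans (le_max_left _ _))

/-- **B5.3.** -/
theorem mult_final (κ : ℝ) : ∃ ε > 0, ∃ C : ℝ, 0 ≤ C ∧ ∀ lam, 0 < lam → lam < ε →
    ∀ (Φ : ElectronState 4) (Ψ : ElectronState 5), AtomPair κ lam ε Φ Ψ →
      ∀ x : R3, 1 ≤ ‖x‖ → (∀ s, Integrable fun y : Conf 4 => (mult x y) ^ 2 * ‖Φ.amp s y‖ ^ 2) ∧
        ∑ s, ∫ y : Conf 4, (mult x y) ^ 2 * ‖Φ.amp s y‖ ^ 2 ≤ (C / ‖x‖ ^ 2) ^ 2 := by
  obtain ⟨M2, hM2, H2⟩ := ion_moment (n := 3) 80 2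
  obtain ⟨M4, hM4, H4⟩ := ion_moment (n := 3) 80 4
  set B : ℝ := 64 * (3 + 1) * M4 + 32 * M2 with hB
  have hB0 : 0 ≤ B := by positivity
  refine ⟨1 / 100, by norm_num, Real.sqrt (32 * (M2 + 16 * B)), Real.sqrt_nonneg _,
    fun lam hl hl' Φ Ψ P x hx => ?_⟩
  have hx0 : 0 < ‖x‖ := by linarith
  have h4 := abs_le.1 P.E4
  have hE4 : energy (pot lam) Φ ≤ 0 := by linarith [h4.2]
  have hE3 : ∃ E' : ℝ, (∀ χ : ElectronState 3, E' * normSq χ ≤ energy (pot lam) χ) ∧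
      2 / 25 ≤ E' - energy (pot lam) Φ := by
    refine ⟨-(9 / 8), fun χ => energy_ge_three H518.hydro hl.le χ, ?_⟩
    linarith [h4.2]
  obtain ⟨i2, m2⟩ := H2 lam hl.le Φ P.gsΦ hE4 (by norm_num) hE3
  obtain ⟨i4, m4⟩ := H4 lam hl.le Φ P.gsΦ hE4 (by norm_num) hE3
  have hmh := fun s => moment_hardy hl.le P.gsΦ hE4 i2 i4 m2 m4 x s
  -- the one-body function
  set v : R3 → ℝ := fun y => ‖y‖ ^ 2 + ‖y‖ ^ 4 / ‖y - x‖ ^ 2 with hv
  have iv : ∀ s, Integrable fun z : Conf 4 => v (z 0) * ‖Φ.amp s z‖ ^ 2 := fun s => by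
    refine ((i2 s).add (hmh s).1).congr (Eventually.of_forall fun z => ?_)
    simp only [Pi.add_apply, hv]
    ring
  have ivj : ∀ (j : Fin 4) s, Integrable fun z : Conf 4 => v (z j) * ‖Φ.amp s z‖ ^ 2 :=
    fun j s => integrable_one Φ v iv j s
  have hv0 : potE (fun z : Conf 4 => v (z 0)) Φ ≤ M2 + 16 * B := by
    have e1 : potE (fun z : Conf 4 => v (z 0)) Φ =
        (∑ s, ∫ z : Conf 4, ‖z 0‖ ^ 2 * ‖Φ.amp s z‖ ^ 2) +
          ∑ s, ∫ z : Conf 4, ‖z 0‖ ^ 4 / ‖z 0 - x‖ ^ 2 * ‖Φ.amp s z‖ ^ 2 := by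
      unfold potE
      rw [← Finset.sum_add_distrib]
      refine Finset.sum_congr rfl fun s _ => ?_
      rw [← integral_add (i2 s) (hmh s).1]
      refine integral_congr_ae (Eventually.of_forall fun z => ?_)
      simp only [hv]
      ring
    rw [e1]
    refine add_le_add m2 ?_
    refine (Finset.sum_le_sum fun s _ => (hmh s).2).trans (le_of_eq ?_)
    rw [Finset.sum_const, Finset.card_univ, hB]
    simp only [Fintype.card_pi, Fintype.card_fin, Finset.prod_const, Finset.card_univ]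
    norm_num
    ring
  have hvj : ∀ j : Fin 4, potE (fun z : Conf 4 => v (z j)) Φ ≤ M2 + 16 * B := fun j => by
    rw [potE_one Φ v j]
    exact hv0
  set c : ℝ := 8 * ((‖x‖ ^ 2)⁻¹) ^ 2 with hc
  have isum : ∀ s, Integrable fun y : Conf 4 => c * ((∑ j, v (y j)) * ‖Φ.amp s y‖ ^ 2) := fun s => by
    refine Integrable.const_mul ?_ c
    simp only [Finset.sum_mul]
    exact integrable_finsetSum _ fun j _ => ivj j s
  have hle : ∀ s (y : Conf 4), (mult x y) ^ 2 * ‖Φ.amp s y‖ ^ 2 ≤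
      c * ((∑ j, v (y j)) * ‖Φ.amp s y‖ ^ 2) := by
    intro s y
    have h1 := mult_sq_le hx0 y
    calc (mult x y) ^ 2 * ‖Φ.amp s y‖ ^ 2
        ≤ (8 * ((‖x‖ ^ 2)⁻¹) ^ 2 * ∑ j, (‖y j‖ ^ 2 + ‖y j‖ ^ 4 / ‖y j - x‖ ^ 2)) *
          ‖Φ.amp s y‖ ^ 2 := mul_le_mul_of_nonneg_right h1 (by positivity)
      _ = _ := by rw [hc]; ring
  have hm : Measurable fun y : Conf 4 => mult x y := by
    unfold mult
    refine Measurable.sub_const (Finset.measurable_fun_sum _ fun j _ => ?_) _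
    exact ((by fun_prop : Continuous fun y : Conf 4 => ‖x - y j‖).measurable).const_div 1
  have hint : ∀ s, Integrable fun y : Conf 4 => (mult x y) ^ 2 * ‖Φ.amp s y‖ ^ 2 := fun s => by
    refine (isum s).mono' ?_ (Eventually.of_forall fun y => ?_)
    · exact ((hm.pow_const 2).aestronglyMeasurable).mul ((amp_L2 Φ s).1.norm.pow 2)
    · rw [Real.norm_eq_abs, abs_of_nonneg (by positivity)]
      exact hle s y
  refine ⟨hint, ?_⟩
  have h1 : ∑ s, ∫ y : Conf 4, (mult x y) ^ 2 * ‖Φ.amp s y‖ ^ 2 ≤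
      ∑ s, ∫ y : Conf 4, c * ((∑ j, v (y j)) * ‖Φ.amp s y‖ ^ 2) :=
    Finset.sum_le_sum fun s _ => integral_mono (hint s) (isum s) fun y => hle s y
  have h2 : ∑ s, ∫ y : Conf 4, c * ((∑ j, v (y j)) * ‖Φ.amp s y‖ ^ 2) =
      c * ∑ j, potE (fun z : Conf 4 => v (z j)) Φ := by
    unfold potE
    rw [Finset.sum_comm, Finset.mul_sum]
    refine Finset.sum_congr rfl fun s _ => ?_
    rw [integral_const_mul, ← integral_finsetSum _ fun j _ => ivj j s]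
    simp only [Finset.sum_mul]
  rw [h2] at h1
  refine h1.trans ?_
  have h3 : ∑ j, potE (fun z : Conf 4 => v (z j)) Φ ≤ 4 * (M2 + 16 * B) := by
    refine (Finset.sum_le_sum fun j _ => hvj j).trans (le_of_eq ?_)
    simp
    ring
  have hc0 : 0 ≤ c := by positivity
  refine (mul_le_mul_of_nonneg_left h3 hc0).trans (le_of_eq ?_)
  rw [div_pow, Real.sq_sqrt (by positivity), hc]
  ring

end

end Vale.Agent.P363.R.B5
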