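import Vale.Agent.P363.R.B5.h924.IMS
import Vale.Agent.P363.R.B5.Defs

/-! Blocks B5.2 and B5.3 in their final form. -/

namespace Vale.Agent.P363.R.B5

open MeasureTheory Filter Topology
open Vale.Agent.P363.Stmt
open Vale.Agent.P363.H382
open Vale.Agent.P363.H943
open Vale.Agent.P363.R801
open Vale.Agent.P363.R.Sob
open Vale.Agent.P363.R.Top
open Vale.Agent.P363.B5
open scoped ContDiff ENNReal ComplexConjugate

noncomputable section

variable {n : ℕ}

theorem kin0_le (u : PState n) : u.kin0 ≤ u.kin := by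
  unfold PState.kin0 PState.kin
  refine Finset.sum_le_sum fun s _ => ?_
  refine Finset.single_le_sum (f := fun i => ∑ k, ∫ z, ‖u.grad s i k z‖ ^ 2) ?_
    (Finset.mem_univ (0 : Fin (n + 1)))
  intro i _
  positivity

theorem en_ofES (lam : ℝ) (Ψ : ElectronState (n + 1)) :
    (PState.ofES Ψ).en lam = energy (pot lam) Ψ := rfl

theorem nsq_ofES (Ψ : ElectronState (n + 1)) : (PState.ofES Ψ).nsq = normSq Ψ := rfl

/-- kinetic energy of a ground state of nonpositive energy -/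
theorem kin_le {lam : ℝ} (hlam : 0 ≤ lam) {Ψ : ElectronState (n + 1)} (h1 : normSq Ψ = 1)
    (hE : energy (pot lam) Ψ ≤ 0) : (PState.ofES Ψ).kin ≤ 16 * (n + 1) := by
  have h := en_ge (PState.ofES Ψ) hlam
  rw [en_ofES, nsq_ofES, h1] at h
  linarith

theorem inv_density_le {lam : ℝ} (hlam : 0 ≤ lam) {Ψ : ElectronState (n + 1)} (h1 : normSq Ψ = 1)
    (hE : energy (pot lam) Ψ ≤ 0) :
    ∫ x, density Ψ x / ‖x‖ ≤ (n + 1) * (4 * (n + 1) + 4) := by
  have e := potE_zero_eq Ψ (fun x => ‖x‖⁻¹) (fun s => es_int_one Ψ s 0)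
  have e2 : ∫ x, density Ψ x / ‖x‖ = ∫ x, ‖x‖⁻¹ * density Ψ x := by
    refine integral_congr_ae (Eventually.of_forall fun x => ?_)
    simp only [div_eq_mul_inv]
    ring
  rw [e2, ← e]
  have h2 : potE (fun z : Conf (n + 1) => ‖z 0‖⁻¹) Ψ ≤ 4 * (n + 1) + 4 := by
    have h3 : potE (fun z : Conf (n + 1) => ‖z 0‖⁻¹) Ψ =
        ∑ s, ∫ z, ‖(PState.ofES Ψ).amp s z‖ ^ 2 / ‖z 0‖ := by
      unfold potE
      refine Finset.sum_congr rfl fun s _ => ?_
      refine integral_congr_ae (Eventually.of_forall fun x => ?_)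
      simp only [div_eq_mul_inv, PState.ofES]
      ring
    rw [h3]
    have h4 : ∑ s, ∫ z, ‖(PState.ofES Ψ).amp s z‖ ^ 2 / ‖z 0‖ ≤
        (1 / 4) * (PState.ofES Ψ).kin0 + 4 * (PState.ofES Ψ).nsq := by
      unfold PState.kin0 PState.nsq
      rw [Finset.mul_sum, Finset.mul_sum, ← Finset.sum_add_distrib]
      refine Finset.sum_le_sum fun s _ => ?_
      have := coul_one (PState.ofES Ψ) s 0 (η := 1 / 4) (by norm_num)
      norm_num at this ⊢
      exact this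
    have h5 := kin0_le (PState.ofES Ψ)
    have h6 := kin_le hlam h1 hE
    rw [nsq_ofES, h1] at h4
    linarith
  exact mul_le_mul_of_nonneg_left h2 (by positivity)

/-- **B5.2.** -/
theorem agmon_final (κ : ℝ) : ∃ ε > 0, ∃ (K R0 : ℝ), 1 ≤ R0 ∧ ∀ lam, 0 < lam → lam < ε →
    ∀ (Φ : ElectronState 4) (Ψ : ElectronState 5), AtomPair κ lam ε Φ Ψ →
      IntegrableOn (fun x => Real.exp (2 * kOf lam Φ Ψ * ‖x‖) / ‖x‖ ^ 6 * density Ψ x)
          {x | R0 < ‖x‖} ∧
        ∫ x in {x | R0 < ‖x‖}, Real.exp (2 * kOf lam Φ Ψ * ‖x‖) / ‖x‖ ^ 6 * density Ψ x ≤ K := by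
  obtain ⟨R₀, C, hR, H⟩ := agmon_six 120
  refine ⟨1 / 100, by norm_num, C, R₀, hR, fun lam hl hl' Φ Ψ P => ?_⟩
  have h4 := abs_le.1 P.E4
  have h5 := abs_le.1 P.E5
  have hE5 : energy (pot lam) Ψ ≤ 0 := by linarith [h5.2]
  set k := kOf lam Φ Ψ with hk
  have hk2 : k ^ 2 = 2 * (energy (pot lam) Φ - energy (pot lam) Ψ) := by
    rw [hk, kOf, Real.sq_sqrt (by linarith [h4.1, h5.2])]
  have hk0 : 0 ≤ k := Real.sqrt_nonneg _
  have hk1 : 9 / 20 ≤ k := by nlinarith [h4.1, h5.2]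
  have hk3 : k ≤ 1 := by nlinarith [h4.2, h5.1]
  have hn : normSq Ψ = 1 := P.gsΨ.1
  have hi := integrable_density Ψ
  have hint : ∫ x, density Ψ x ≤ 120 := by
    rw [H382.integral_density, hn]
    norm_num
  have hint2 : ∫ x, density Ψ x / ‖x‖ ≤ 120 := by
    have := inv_density_le hl.le hn hE5
    norm_num at this ⊢
    exact this
  have hw : ∀ W : R3 → ℝ, Wt W → ∫ x, (k ^ 2 / 2 - 1 / ‖x‖) * W x ^ 2 * density Ψ x ≤
        (1 / 2) * ∫ x, ‖fderiv ℝ W x‖ ^ 2 * density Ψ x := by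
    intro W hW
    have := weighted hl.le P.gsΨ (E' := energy (pot lam) Φ) (fun χ => ground_le' P.gsΦ χ) hW
    rw [hk2]
    have e : 2 * (energy (pot lam) Φ - energy (pot lam) Ψ) / 2 =
      energy (pot lam) Φ - energy (pot lam) Ψ := by ring
    rw [e]
    exact this
  have hfin := H k (density Ψ) hk1 hk3 (Eventually.of_forall fun x => density_nonneg Ψ x) hi
    (inv_density_int Ψ) hint hint2 hw
  have hsub : {x : R3 | R₀ < ‖x‖} ⊆ {x | R₀ ≤ ‖x‖} := by
    intro x (hx : R₀ < ‖x‖)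
    show R₀ ≤ ‖x‖
    exact hx.le
  simp only [div_eq_mul_inv]
  refine ⟨hfin.1.mono_set hsub, ?_⟩
  refine (setIntegral_mono_set hfin.1 ?_ hsub.eventuallyLE).trans hfin.2
  refine Eventually.of_forall fun x => ?_
  have := density_nonneg Ψ x
  simp only [Pi.zero_apply]
  positivity

end

end Vale.Agent.P363.R.B5
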