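import Vale.Agent.P363.Stmt

/-! Block B5.2, scalar part: Agmon's exponential upper bound for the density, from the inequality
`∫ (k²/2 - 1/|x|) W² n ≤ ½ ∫ |∇W|² n` for all bounded smooth weights with bounded gradient. -/

namespace Vale.Agent.P363.R.B5

open MeasureTheory Filter Topology
open Vale.Agent.P363.Stmt
open scoped ContDiff ENNReal

noncomputable section

/-- admissible weights: smooth, bounded, with bounded gradient. -/
structure Wt (W : R3 → ℝ) : Prop where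
  smooth : ContDiff ℝ ∞ W
  bdd : ∃ C, ∀ x, |W x| ≤ C
  gbdd : ∃ C, ∀ x, ‖fderiv ℝ W x‖ ≤ C

/-- Fatou's lemma for nonnegative Bochner integrable functions. -/
theorem fatou_real {α : Type*} [MeasurableSpace α] {μ : Measure α} {f : ℕ → α → ℝ} {F : α → ℝ}
    {B : ℝ} (hf : ∀ j, Integrable (f j) μ) (h0 : ∀ j, ∀ᵐ x ∂μ, 0 ≤ f j x)
    (hle : ∀ j, ∫ x, f j x ∂μ ≤ B)
    (hlim : ∀ᵐ x ∂μ, Tendsto (fun j => f j x) atTop (𝓝 (F x))) :
    Integrable F μ ∧ ∫ x, F x ∂μ ≤ B := by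
  have hm : AEStronglyMeasurable F μ :=
    aestronglyMeasurable_of_tendsto_ae atTop (fun j => (hf j).1) hlim
  have hB : 0 ≤ B := (integral_nonneg_of_ae (h0 0)).trans (hle 0)
  have hF0 : ∀ᵐ x ∂μ, 0 ≤ F x := by
    filter_upwards [hlim, ae_all_iff.2 h0] with x hx h
    exact ge_of_tendsto' hx h
  have key : ∫⁻ x, ENNReal.ofReal (F x) ∂μ ≤ ENNReal.ofReal B := by
    calc ∫⁻ x, ENNReal.ofReal (F x) ∂μ
        = ∫⁻ x, liminf (fun j => ENNReal.ofReal (f j x)) atTop ∂μ := by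
          refine lintegral_congr_ae ?_
          filter_upwards [hlim] with x hx
          exact ((ENNReal.continuous_ofReal.tendsto _).comp hx).liminf_eq.symm
      _ ≤ liminf (fun j => ∫⁻ x, ENNReal.ofReal (f j x) ∂μ) atTop :=
          lintegral_liminf_le' fun j => (hf j).1.aemeasurable.ennreal_ofReal
      _ ≤ ENNReal.ofReal B := by
          refine (liminf_le_liminf (v := fun _ => ENNReal.ofReal B) ?_).trans ?_
          · refine Eventually.of_forall fun j => ?_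
            rw [← ofReal_integral_eq_lintegral_ofReal (hf j) (h0 j)]
            exact ENNReal.ofReal_le_ofReal (hle j)
          · simp
  have hi : Integrable F μ := by
    refine ⟨hm, ?_⟩
    rw [hasFiniteIntegral_iff_ofReal hF0]
    exact key.trans_lt ENNReal.ofReal_lt_top
  refine ⟨hi, ?_⟩
  rw [← ofReal_integral_eq_lintegral_ofReal hi hF0] at key
  exact (ENNReal.ofReal_le_ofReal_iff hB).1 key

/-! ### the regularised radius -/

/-- `⟨x⟩ = √(1 + |x|²)` -/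
def jap (x : R3) : ℝ := Real.sqrt (1 + ‖x‖ ^ 2)

theorem jap_sq (x : R3) : jap x ^ 2 = 1 + ‖x‖ ^ 2 := Real.sq_sqrt (by positivity)

theorem one_le_jap (x : R3) : 1 ≤ jap x := by
  have h := jap_sq x
  have h0 : 0 ≤ jap x := Real.sqrt_nonneg _
  nlinarith [sq_nonneg ‖x‖]

theorem jap_pos (x : R3) : 0 < jap x := lt_of_lt_of_le one_pos (one_le_jap x)

theorem norm_le_jap (x : R3) : ‖x‖ ≤ jap x := by
  have h := jap_sq x
  nlinarith [norm_nonneg x, jap_pos x]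

theorem jap_le (x : R3) : jap x ≤ 1 + ‖x‖ := by
  have h := jap_sq x
  nlinarith [norm_nonneg x, jap_pos x]

theorem contDiff_jap : ContDiff ℝ ∞ jap := by
  refine ContDiff.sqrt ?_ fun x => ?_
  · exact contDiff_const.add (contDiff_norm_sq ℝ)
  · positivity

theorem hasFDerivAt_jap (x : R3) :
    HasFDerivAt jap ((jap x)⁻¹ • (innerSL ℝ x)) x := by
  have h1 : HasFDerivAt (fun y : R3 => 1 + ‖y‖ ^ 2) (2 • (innerSL ℝ x)) x := by
    have := (hasStrictFDerivAt_norm_sq x).hasFDerivAt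
    simpa using this.const_add 1
  have h2 := h1.sqrt (by positivity)
  refine h2.congr_fderiv ?_
  ext y
  simp only [jap, smul_apply, nsmul_eq_mul, smul_eq_mul]
  field_simp
  simp

theorem norm_fderiv_jap_le (x : R3) : ‖(jap x)⁻¹ • (innerSL ℝ x : R3 →L[ℝ] ℝ)‖ ≤ 1 := by
  rw [norm_smul, innerSL_apply_norm, norm_inv, Real.norm_eq_abs, abs_of_pos (jap_pos x)]
  rw [inv_mul_le_iff₀ (jap_pos x), mul_one]
  exact norm_le_jap x

/-! ### the weights -/

/-- the exponent `k t - m log t + C₀` -/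
def ex (k m C₀ t : ℝ) : ℝ := k * t - m * Real.log t + C₀

/-- the regularised weight, as a function of `⟨x⟩` -/
def wt (k m C₀ ε t : ℝ) : ℝ := Real.exp (ex k m C₀ t / (1 + ε * ex k m C₀ t))

theorem hasDerivAt_ex (k m C₀ : ℝ) {t : ℝ} (ht : 0 < t) :
    HasDerivAt (ex k m C₀) (k - m / t) t := by
  have h1 : HasDerivAt (fun t : ℝ => k * t) k t := by
    simpa using (hasDerivAt_id t).const_mul k
  have h2 := (Real.hasDerivAt_log ht.ne').const_mul m
  have h3 := (h1.sub h2).add_const C₀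
  refine h3.congr_deriv ?_
  rw [div_eq_mul_inv]

theorem hasDerivAt_wt (k m C₀ ε : ℝ) {t : ℝ} (ht : 0 < t) (hε : 0 ≤ ε) (h0 : 0 ≤ ex k m C₀ t) :
    HasDerivAt (wt k m C₀ ε)
      (wt k m C₀ ε t * ((k - m / t) / (1 + ε * ex k m C₀ t) ^ 2)) t := by
  have hpos : 0 < 1 + ε * ex k m C₀ t := by positivity
  have h1 := hasDerivAt_ex k m C₀ ht
  have h2 := h1.div ((h1.const_mul ε).const_add 1) hpos.ne'
  have h3 := h2.exp
  refine h3.congr_deriv ?_
  simp only [wt]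
  congr 1
  field_simp
  ring

/-- nonnegativity of the exponent -/
theorem ex_nonneg {k₀ k m t : ℝ} (hk₀ : 0 < k₀) (hk : k₀ ≤ k) (hm : 0 < m) (ht : 0 < t)
    (hmk : k₀ ≤ m) : 0 ≤ ex k m (m * Real.log (m / k₀)) t := by
  have h1 : Real.log (k₀ * t / m) ≤ k₀ * t / m - 1 := Real.log_le_sub_one_of_pos (by positivity)
  have h2 : Real.log (k₀ * t / m) = Real.log t - Real.log (m / k₀) := by
    rw [Real.log_div (by positivity) hm.ne', Real.log_mul hk₀.ne' ht.ne',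
      Real.log_div hm.ne' hk₀.ne']
    ring
  rw [h2] at h1
  have h3 : m * (Real.log t - Real.log (m / k₀)) ≤ m * (k₀ * t / m - 1) :=
    mul_le_mul_of_nonneg_left h1 hm.le
  have h4 : m * (k₀ * t / m - 1) = k₀ * t - m := by field_simp
  have h5 : k₀ * t ≤ k * t := mul_le_mul_of_nonneg_right hk ht.le
  have h6 : 0 ≤ Real.log (m / k₀) := Real.log_nonneg (by rw [le_div_iff₀ hk₀]; linarith)
  unfold ex
  nlinarith

theorem wt_pos (k m C₀ ε t : ℝ) : 0 < wt k m C₀ ε t := Real.exp_pos _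

theorem wt_le {k m C₀ ε t : ℝ} (hε : 0 < ε) (h0 : 0 ≤ ex k m C₀ t) :
    wt k m C₀ ε t ≤ Real.exp (1 / ε) := by
  have hpos : 0 < 1 + ε * ex k m C₀ t := by positivity
  refine Real.exp_le_exp.2 ?_
  rw [div_le_div_iff₀ hpos hε]
  linarith

theorem wt_le' {k m C₀ ε t : ℝ} (hε : 0 ≤ ε) (h0 : 0 ≤ ex k m C₀ t) :
    wt k m C₀ ε t ≤ Real.exp (ex k m C₀ t) := by
  have hpos : 0 < 1 + ε * ex k m C₀ t := by positivity
  refine Real.exp_le_exp.2 ?_
  rw [div_le_iff₀ hpos]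
  nlinarith [mul_nonneg hε (mul_nonneg h0 h0)]

/-- the regularised weight on space. -/
def WE (k m C₀ ε : ℝ) (x : R3) : ℝ := wt k m C₀ ε (jap x)

theorem norm_fderiv_WE_le {k m C₀ ε : ℝ} (hε : 0 ≤ ε) (x : R3) (h0 : 0 ≤ ex k m C₀ (jap x)) :
    ‖fderiv ℝ (WE k m C₀ ε) x‖ ≤ WE k m C₀ ε x * |k - m / jap x| := by
  have h1 := (hasDerivAt_wt k m C₀ ε (jap_pos x) hε h0).comp_hasFDerivAt x (hasFDerivAt_jap x)
  have h2 : fderiv ℝ (WE k m C₀ ε) x = _ := h1.fderiv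
  rw [h2, norm_smul]
  have h3 := norm_fderiv_jap_le x
  have h4 : 0 < WE k m C₀ ε x := wt_pos _ _ _ _ _
  have hpos : 1 ≤ 1 + ε * ex k m C₀ (jap x) := by
    have := mul_nonneg hε h0
    linarith
  have h5 : |(k - m / jap x) / (1 + ε * ex k m C₀ (jap x)) ^ 2| ≤ |k - m / jap x| := by
    rw [abs_div, abs_of_pos (by positivity : (0:ℝ) < (1 + ε * ex k m C₀ (jap x)) ^ 2)]
    exact div_le_self (abs_nonneg _) (one_le_pow₀ hpos)
  rw [Real.norm_eq_abs, abs_mul, abs_of_pos (wt_pos k m C₀ ε (jap x))]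
  calc wt k m C₀ ε (jap x) * |(k - m / jap x) / (1 + ε * ex k m C₀ (jap x)) ^ 2| *
        ‖(jap x)⁻¹ • (innerSL ℝ x : R3 →L[ℝ] ℝ)‖
      ≤ wt k m C₀ ε (jap x) * |(k - m / jap x) / (1 + ε * ex k m C₀ (jap x)) ^ 2| * 1 := by
        gcongr
    _ ≤ WE k m C₀ ε x * |k - m / jap x| := by
        rw [mul_one]
        exact mul_le_mul_of_nonneg_left h5 (wt_pos _ _ _ _ _).le

theorem contDiff_WE {k m C₀ ε : ℝ} (hε : 0 ≤ ε) (h0 : ∀ x : R3, 0 ≤ ex k m C₀ (jap x)) :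
    ContDiff ℝ ∞ (WE k m C₀ ε) := by
  have h1 : ContDiff ℝ ∞ (fun x : R3 => ex k m C₀ (jap x)) := by
    unfold ex
    exact ((contDiff_const.mul contDiff_jap).sub
      (contDiff_const.mul (contDiff_jap.log fun x => (jap_pos x).ne'))).add contDiff_const
  have h2 : ContDiff ℝ ∞ (fun x : R3 => ex k m C₀ (jap x) / (1 + ε * ex k m C₀ (jap x))) := by
    refine h1.div (contDiff_const.add (contDiff_const.mul h1)) fun x => ?_
    have := mul_nonneg hε (h0 x)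
    positivity
  exact h2.exp

theorem wt_WE {k m C₀ ε : ℝ} (hε : 0 < ε) (h0 : ∀ x : R3, 0 ≤ ex k m C₀ (jap x)) :
    Wt (WE k m C₀ ε) := by
  have hb : ∀ x, |WE k m C₀ ε x| ≤ Real.exp (1 / ε) := fun x => by
    have h : 0 < WE k m C₀ ε x := wt_pos _ _ _ _ _
    rw [abs_of_pos h]
    exact wt_le hε (h0 x)
  refine ⟨contDiff_WE hε.le h0, ⟨_, hb⟩, ⟨Real.exp (1 / ε) * (|k| + |m|), fun x => ?_⟩⟩
  refine (norm_fderiv_WE_le hε.le x (h0 x)).trans ?_
  have h1 : |k - m / jap x| ≤ |k| + |m| := by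
    refine (abs_sub _ _).trans ?_
    have : |m / jap x| ≤ |m| := by
      rw [abs_div, abs_of_pos (jap_pos x)]
      exact div_le_self (abs_nonneg _) (one_le_jap x)
    linarith
  have h2 : WE k m C₀ ε x ≤ Real.exp (1 / ε) := wt_le hε (h0 x)
  exact mul_le_mul h2 h1 (abs_nonneg _) (Real.exp_pos _).le

/-- lower bound of the effective potential far out. -/
theorem eff_lower {k₀ k m : ℝ} (hk : k₀ ≤ k) (hm0 : 0 < m) (hm : 1 < k₀ * m) (hk₀1 : k₀ ≤ 1)
    {x : R3} (hx : 1 ≤ ‖x‖) (hx2 : (m + m ^ 2) / (k₀ * m - 1) ≤ ‖x‖) :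
    (k₀ * m - 1) / 2 / ‖x‖ ≤ k ^ 2 / 2 - 1 / ‖x‖ - (1 / 2) * (k - m / jap x) ^ 2 := by
  have hr : 0 < ‖x‖ := by linarith
  have hj := jap_pos x
  have hj2 := jap_sq x
  have hc : 0 < k₀ * m - 1 := by linarith
  have e1 : k ^ 2 / 2 - 1 / ‖x‖ - (1 / 2) * (k - m / jap x) ^ 2 =
      k * (m / jap x) - (m / jap x) ^ 2 / 2 - 1 / ‖x‖ := by ring
  rw [e1]
  have h1 : k₀ * (m / jap x) ≤ k * (m / jap x) :=
    mul_le_mul_of_nonneg_right hk (by positivity)
  -- `jap x ≤ r + 1/(2r)`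
  have h2 : 1 / ‖x‖ - 1 / (2 * ‖x‖ ^ 2) ≤ 1 / jap x := by
    have h3 : jap x ≤ ‖x‖ + 1 / (2 * ‖x‖) := by
      have h4 : 0 ≤ ‖x‖ + 1 / (2 * ‖x‖) := by positivity
      have h5 : (‖x‖ + 1 / (2 * ‖x‖)) ^ 2 = ‖x‖ ^ 2 + 1 + (1 / (2 * ‖x‖)) ^ 2 := by
        field_simp
        ring
      have h6 : jap x ^ 2 ≤ (‖x‖ + 1 / (2 * ‖x‖)) ^ 2 := by
        rw [h5, hj2]
        have := sq_nonneg (1 / (2 * ‖x‖))
        linarith
      exact (abs_le_of_sq_le_sq' h6 h4).2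
    have h7 : 1 / (‖x‖ + 1 / (2 * ‖x‖)) ≤ 1 / jap x := one_div_le_one_div_of_le hj h3
    refine le_trans ?_ h7
    rw [div_sub_div _ _ hr.ne' (by positivity), div_le_div_iff₀ (by positivity) (by positivity)]
    have h8 : (1 : ℝ) ≤ ‖x‖ ^ 2 := one_le_pow₀ hx
    have h9 : 0 < 1 / (2 * ‖x‖) := by positivity
    have h10 : ‖x‖ * (1 / (2 * ‖x‖)) = 1 / 2 := by field_simp
    nlinarith [mul_pos hr h9]
  have h3 : m / jap x ≤ m / ‖x‖ := by
    have := norm_le_jap x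
    gcongr
  have h4 : (m / jap x) ^ 2 ≤ (m / ‖x‖) ^ 2 := by
    gcongr
  have h5 : m * (1 / ‖x‖ - 1 / (2 * ‖x‖ ^ 2)) ≤ m / jap x := by
    have := mul_le_mul_of_nonneg_left h2 hm0.le
    rwa [mul_one_div] at this
  have hk₀ : 0 < k₀ := by
    by_contra h
    push Not at h
    nlinarith
  have h6 : k₀ * (m * (1 / ‖x‖ - 1 / (2 * ‖x‖ ^ 2))) ≤ k₀ * (m / jap x) :=
    mul_le_mul_of_nonneg_left h5 hk₀.le
  have h7 : (m + m ^ 2) / ‖x‖ ≤ k₀ * m - 1 := by
    rw [div_le_iff₀ hr]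
    rw [div_le_iff₀ hc] at hx2
    linarith
  have h8 : (k₀ * m - 1) / 2 / ‖x‖ ≤
      k₀ * (m * (1 / ‖x‖ - 1 / (2 * ‖x‖ ^ 2))) - (m / ‖x‖) ^ 2 / 2 - 1 / ‖x‖ := by
    have e2 : k₀ * (m * (1 / ‖x‖ - 1 / (2 * ‖x‖ ^ 2))) - (m / ‖x‖) ^ 2 / 2 - 1 / ‖x‖
        - (k₀ * m - 1) / 2 / ‖x‖ =
        ((k₀ * m - 1) - k₀ * m / ‖x‖ - m ^ 2 / ‖x‖) / (2 * ‖x‖) := by
      field_simp
      ring
    have h9 : 0 ≤ ((k₀ * m - 1) - k₀ * m / ‖x‖ - m ^ 2 / ‖x‖) / (2 * ‖x‖) := by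
      apply div_nonneg _ (by positivity)
      have h10 : k₀ * m / ‖x‖ ≤ m / ‖x‖ := by
        gcongr
        nlinarith
      rw [add_div] at h7
      linarith
    linarith
  linarith

/-- upper bound of the weight in a ball -/
theorem WE_le_ball {k m C₀ ε R : ℝ} (hk1 : k ≤ 1) (hm : 0 < m) (hε : 0 ≤ ε) {x : R3}
    (h0 : 0 ≤ ex k m C₀ (jap x)) (hx : ‖x‖ ≤ R) :
    WE k m C₀ ε x ≤ Real.exp (1 + R + C₀) := by
  refine (wt_le' hε h0).trans (Real.exp_le_exp.2 ?_)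
  have h1 := jap_le x
  have h2 : 0 ≤ Real.log (jap x) := Real.log_nonneg (one_le_jap x)
  have h3 : 0 ≤ m * Real.log (jap x) := by positivity
  have h4 : k * jap x ≤ 1 * jap x := mul_le_mul_of_nonneg_right hk1 (jap_pos x).le
  unfold ex
  linarith

/-- **Agmon bound.** -/
theorem agmon {k₀ m A : ℝ} (hk₀1 : k₀ ≤ 1) (hm0 : 0 < m) (hm : 1 < k₀ * m) :
    ∃ R₀ C : ℝ, 1 ≤ R₀ ∧ ∀ (k : ℝ) (n : R3 → ℝ), k₀ ≤ k → k ≤ 1 → (∀ᵐ x, 0 ≤ n x) →
      Integrable n → Integrable (fun x => n x / ‖x‖) → ∫ x, n x ≤ A → ∫ x, n x / ‖x‖ ≤ A →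
      (∀ W : R3 → ℝ, Wt W → ∫ x, (k ^ 2 / 2 - 1 / ‖x‖) * W x ^ 2 * n x ≤
        (1 / 2) * ∫ x, ‖fderiv ℝ W x‖ ^ 2 * n x) →
      IntegrableOn (fun x => Real.exp (2 * k * ‖x‖) * (‖x‖ ^ (2 * m + 1))⁻¹ * n x) {x | R₀ ≤ ‖x‖} ∧
      ∫ x in {x | R₀ ≤ ‖x‖}, Real.exp (2 * k * ‖x‖) * (‖x‖ ^ (2 * m + 1))⁻¹ * n x ≤ C := by
  have hk₀ : 0 < k₀ := by
    by_contra h
    push Not at h
    nlinarith
  have hc : 0 < k₀ * m - 1 := by linarith
  have hmk : k₀ ≤ m := by nlinarith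
  have hm1 : 1 ≤ m := by nlinarith
  set C₀ : ℝ := m * Real.log (m / k₀) with hC₀
  set R₀ : ℝ := max 1 ((m + m ^ 2) / (k₀ * m - 1)) with hR₀
  have hR1 : 1 ≤ R₀ := le_max_left _ _
  set M : ℝ := Real.exp (1 + R₀ + C₀) with hM
  refine ⟨R₀, 2 ^ m * ((2 / (k₀ * m - 1)) * (M ^ 2 * (A + m ^ 2 / 2 * A))), hR1,
    fun k n hk hk1 hn hi hi1 hA hA1 hyp => ?_⟩
  have h0 : ∀ x : R3, 0 ≤ ex k m C₀ (jap x) := fun x => ex_nonneg hk₀ hk hm0 (jap_pos x) hmk
  set S : Set R3 := {x | R₀ ≤ ‖x‖} with hS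
  have hSm : MeasurableSet S := measurableSet_le measurable_const measurable_norm
  -- the main bound at fixed `ε`
  have main : ∀ ε : ℝ, 0 < ε → Integrable (fun x => WE k m C₀ ε x ^ 2 * (n x / ‖x‖)) ∧
      ∫ x in S, WE k m C₀ ε x ^ 2 * (n x / ‖x‖) ≤
        (2 / (k₀ * m - 1)) * (M ^ 2 * (A + m ^ 2 / 2 * A)) := by
    intro ε hε
    have hW := wt_WE (k := k) (m := m) (C₀ := C₀) hε h0
    have hWc : Continuous (WE k m C₀ ε) := hW.smooth.continuous
    have hWb : ∀ x, |WE k m C₀ ε x| ≤ Real.exp (1 / ε) := fun x => by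
      have h : 0 < WE k m C₀ ε x := wt_pos _ _ _ _ _
      rw [abs_of_pos h]
      exact wt_le hε (h0 x)
    have hW2 : ∀ x, ‖WE k m C₀ ε x ^ 2‖ ≤ Real.exp (1 / ε) ^ 2 := fun x => by
      rw [norm_pow, Real.norm_eq_abs]
      exact pow_le_pow_left₀ (abs_nonneg _) (hWb x) 2
    have hI1 : Integrable (fun x => WE k m C₀ ε x ^ 2 * n x) :=
      hi.bdd_mul (hWc.pow 2).aestronglyMeasurable (Eventually.of_forall hW2)
    have hI2 : Integrable (fun x => WE k m C₀ ε x ^ 2 * (n x / ‖x‖)) :=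
      hi1.bdd_mul (hWc.pow 2).aestronglyMeasurable (Eventually.of_forall hW2)
    have hjc : Continuous jap := contDiff_jap.continuous
    have hgb : ∀ x : R3, |k - m / jap x| ≤ m := fun x => by
      have h1 : m / jap x ≤ m := div_le_self hm0.le (one_le_jap x)
      have h2 : 0 < m / jap x := div_pos hm0 (jap_pos x)
      rw [abs_le]
      constructor <;> linarith
    have hgc : Continuous fun x : R3 => (k - m / jap x) ^ 2 :=
      (continuous_const.sub (continuous_const.div hjc fun x => (jap_pos x).ne')).pow 2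
    have hI3 : Integrable (fun x => (k - m / jap x) ^ 2 * (WE k m C₀ ε x ^ 2 * n x)) := by
      refine hI1.bdd_mul (c := m ^ 2) hgc.aestronglyMeasurable (Eventually.of_forall fun x => ?_)
      rw [norm_pow, Real.norm_eq_abs]
      exact pow_le_pow_left₀ (abs_nonneg _) (hgb x) 2
    have hI4 : Integrable (fun x => (k ^ 2 / 2 - 1 / ‖x‖) * WE k m C₀ ε x ^ 2 * n x) := by
      refine ((hI1.const_mul (k ^ 2 / 2)).sub hI2).congr (Eventually.of_forall fun x => ?_)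
      simp only [Pi.sub_apply]
      ring
    have hI5 : Integrable (fun x => ‖fderiv ℝ (WE k m C₀ ε) x‖ ^ 2 * n x) := by
      obtain ⟨C, hC⟩ := hW.gbdd
      refine hi.bdd_mul (c := C ^ 2) ?_ (Eventually.of_forall fun x => ?_)
      · exact ((hW.smooth.continuous_fderiv (by simp)).norm.pow 2).aestronglyMeasurable
      · rw [norm_pow, norm_norm]
        exact pow_le_pow_left₀ (norm_nonneg _) (hC x) 2
    have hy := hyp _ hW
    have hy2 : ∫ x, ‖fderiv ℝ (WE k m C₀ ε) x‖ ^ 2 * n x ≤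
        ∫ x, (k - m / jap x) ^ 2 * (WE k m C₀ ε x ^ 2 * n x) := by
      refine integral_mono_ae hI5 hI3 ?_
      filter_upwards [hn] with x hx
      have h1 := norm_fderiv_WE_le (k := k) (m := m) (C₀ := C₀) hε.le x (h0 x)
      have h2 := pow_le_pow_left₀ (norm_nonneg _) h1 2
      rw [mul_pow, sq_abs] at h2
      have h3 := mul_le_mul_of_nonneg_right h2 hx
      calc _ ≤ _ := h3
        _ = _ := by ring
    -- the effective potential
    set a : R3 → ℝ := fun x => k ^ 2 / 2 - 1 / ‖x‖ - (1 / 2) * (k - m / jap x) ^ 2 with ha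
    have hIa : Integrable (fun x => a x * (WE k m C₀ ε x ^ 2 * n x)) := by
      refine (hI4.sub (hI3.const_mul (1 / 2))).congr (Eventually.of_forall fun x => ?_)
      simp only [Pi.sub_apply, ha]
      ring
    have hya : ∫ x, a x * (WE k m C₀ ε x ^ 2 * n x) ≤ 0 := by
      have e : ∫ x, a x * (WE k m C₀ ε x ^ 2 * n x) =
          (∫ x, (k ^ 2 / 2 - 1 / ‖x‖) * WE k m C₀ ε x ^ 2 * n x) -
            (1 / 2) * ∫ x, (k - m / jap x) ^ 2 * (WE k m C₀ ε x ^ 2 * n x) := by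
        rw [← integral_const_mul, ← integral_sub hI4 (hI3.const_mul _)]
        refine integral_congr_ae (Eventually.of_forall fun x => ?_)
        simp only [ha]
        ring
      rw [e]
      linarith
    rw [← integral_add_compl hSm hIa] at hya
    refine ⟨hI2, ?_⟩
    have hin : ∫ x in S, ((k₀ * m - 1) / 2) * (WE k m C₀ ε x ^ 2 * (n x / ‖x‖)) ≤
        ∫ x in S, a x * (WE k m C₀ ε x ^ 2 * n x) := by
      refine setIntegral_mono_on_ae (hI2.const_mul _).integrableOn hIa.integrableOn hSm ?_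
      filter_upwards [hn] with x hx hxS
      have hx1 : R₀ ≤ ‖x‖ := hxS
      have h1 := eff_lower hk hm0 hm hk₀1 (hR1.trans hx1) ((le_max_right _ _).trans hx1)
      have h2 : 0 ≤ WE k m C₀ ε x ^ 2 * n x := by positivity
      have h3 := mul_le_mul_of_nonneg_right h1 h2
      calc (k₀ * m - 1) / 2 * (WE k m C₀ ε x ^ 2 * (n x / ‖x‖))
          = (k₀ * m - 1) / 2 / ‖x‖ * (WE k m C₀ ε x ^ 2 * n x) := by ring
        _ ≤ _ := h3
    have hout : -∫ x in Sᶜ, a x * (WE k m C₀ ε x ^ 2 * n x) ≤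
        M ^ 2 * (A + m ^ 2 / 2 * A) := by
      rw [← integral_neg]
      have hIb : Integrable (fun x => M ^ 2 * (n x / ‖x‖ + m ^ 2 / 2 * n x)) :=
        (hi1.add (hi.const_mul _)).const_mul _
      have h1 : ∫ x in Sᶜ, -(a x * (WE k m C₀ ε x ^ 2 * n x)) ≤
          ∫ x in Sᶜ, M ^ 2 * (n x / ‖x‖ + m ^ 2 / 2 * n x) := by
        refine setIntegral_mono_on_ae hIa.neg.integrableOn hIb.integrableOn hSm.compl ?_
        filter_upwards [hn] with x hx hxS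
        have hx1 : ‖x‖ ≤ R₀ := by
          have h : ¬ (R₀ ≤ ‖x‖) := hxS
          exact (not_le.1 h).le
        have h2 := WE_le_ball (k := k) (m := m) (C₀ := C₀) hk1 hm0 hε.le (h0 x) hx1
        have h3 : WE k m C₀ ε x ^ 2 ≤ M ^ 2 :=
          pow_le_pow_left₀ (wt_pos _ _ _ _ _).le h2 2
        have h4 : -a x ≤ 1 / ‖x‖ + m ^ 2 / 2 := by
          have h5 : (k - m / jap x) ^ 2 ≤ m ^ 2 := by
            rw [← sq_abs (k - m / jap x)]
            exact pow_le_pow_left₀ (abs_nonneg _) (hgb x) 2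
          simp only [ha]
          nlinarith [sq_nonneg k]
        have h6 : 0 ≤ 1 / ‖x‖ + m ^ 2 / 2 := by positivity
        calc -(a x * (WE k m C₀ ε x ^ 2 * n x)) = (-a x) * (WE k m C₀ ε x ^ 2 * n x) := by ring
          _ ≤ (1 / ‖x‖ + m ^ 2 / 2) * (WE k m C₀ ε x ^ 2 * n x) :=
              mul_le_mul_of_nonneg_right h4 (by positivity)
          _ ≤ (1 / ‖x‖ + m ^ 2 / 2) * (M ^ 2 * n x) :=
              mul_le_mul_of_nonneg_left (mul_le_mul_of_nonneg_right h3 hx) h6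
          _ = _ := by ring
      refine h1.trans ((setIntegral_le_integral hIb ?_).trans ?_)
      · filter_upwards [hn] with x hx
        simp only [Pi.zero_apply]
        positivity
      · rw [integral_const_mul, integral_add hi1 (hi.const_mul _), integral_const_mul]
        have : 0 < M := Real.exp_pos _
        gcongr
    rw [integral_const_mul] at hin
    have hfin : (k₀ * m - 1) / 2 * ∫ x in S, WE k m C₀ ε x ^ 2 * (n x / ‖x‖) ≤
        M ^ 2 * (A + m ^ 2 / 2 * A) := by linarith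
    rw [← mul_le_mul_iff_right₀ (show 0 < (k₀ * m - 1) / 2 by positivity)]
    refine hfin.trans (le_of_eq ?_)
    have hgen : ∀ c Z : ℝ, 0 < c → Z = c / 2 * (2 / c * Z) := by
      intro c Z hc
      field_simp
    exact hgen _ _ hc
  -- the limit `ε → 0`
  have hlim := fatou_real (μ := (volume : Measure R3).restrict S)
    (f := fun j x => WE k m C₀ (1 / ((j : ℝ) + 1)) x ^ 2 * (n x / ‖x‖))
    (F := fun x => Real.exp (ex k m C₀ (jap x)) ^ 2 * (n x / ‖x‖))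
    (B := (2 / (k₀ * m - 1)) * (M ^ 2 * (A + m ^ 2 / 2 * A)))
    (fun j => ((main _ (by positivity)).1).integrableOn)
    (fun j => ae_restrict_of_ae (hn.mono fun x hx => by positivity))
    (fun j => (main _ (by positivity)).2)
    (Eventually.of_forall fun x => by
      refine Tendsto.mul_const _ (Tendsto.pow ?_ 2)
      have h1 : Tendsto (fun j : ℕ => 1 / ((j : ℝ) + 1)) atTop (𝓝 0) :=
        tendsto_one_div_add_atTop_nhds_zero_nat
      have h2 : Tendsto (fun j : ℕ => 1 + 1 / ((j : ℝ) + 1) * ex k m C₀ (jap x)) atTop (𝓝 1) := by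
        simpa using (h1.mul_const (ex k m C₀ (jap x))).const_add 1
      have h3 : Tendsto (fun j : ℕ => ex k m C₀ (jap x) /
          (1 + 1 / ((j : ℝ) + 1) * ex k m C₀ (jap x))) atTop (𝓝 (ex k m C₀ (jap x))) := by
        have h4 := (tendsto_const_nhds (x := ex k m C₀ (jap x))).div h2 one_ne_zero
        rw [div_one] at h4
        exact h4
      exact (Real.continuous_exp.tendsto _).comp h3)
  have hcmp : ∀ x : R3, x ∈ S → 0 ≤ n x →
      Real.exp (2 * k * ‖x‖) * (‖x‖ ^ (2 * m + 1))⁻¹ * n x ≤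
        2 ^ m * (Real.exp (ex k m C₀ (jap x)) ^ 2 * (n x / ‖x‖)) := by
    intro x hxS hx
    have hx1 : 1 ≤ ‖x‖ := hR1.trans hxS
    have hr : 0 < ‖x‖ := by linarith
    have e1 : ‖x‖ ^ (2 * m + 1) = ‖x‖ ^ (2 * m) * ‖x‖ := by
      rw [Real.rpow_add hr, Real.rpow_one]
    have e2 : Real.exp (ex k m C₀ (jap x)) ^ 2 =
        Real.exp (2 * k * jap x) * (jap x ^ (2 * m))⁻¹ * Real.exp (2 * C₀) := by
      rw [← Real.exp_nat_mul, ← Real.rpow_neg (jap_pos x).le, Real.rpow_def_of_pos (jap_pos x),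
        ← Real.exp_add, ← Real.exp_add]
      congr 1
      unfold ex
      push_cast
      ring
    have e3 : jap x ^ (2 * m) ≤ 2 ^ m * ‖x‖ ^ (2 * m) := by
      have h1 : jap x ^ 2 ≤ 2 * ‖x‖ ^ 2 := by
        rw [jap_sq]
        nlinarith [one_le_pow₀ (n := 2) hx1]
      have h2 : jap x ^ (2 * m) = (jap x ^ 2) ^ m := by
        rw [Real.rpow_mul (jap_pos x).le, Real.rpow_two]
      have h3 : 2 ^ m * ‖x‖ ^ (2 * m) = (2 * ‖x‖ ^ 2) ^ m := by
        rw [Real.mul_rpow (by norm_num) (by positivity), Real.rpow_mul hr.le, Real.rpow_two]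
      rw [h2, h3]
      exact Real.rpow_le_rpow (by positivity) h1 hm0.le
    have e4 : (1 : ℝ) ≤ Real.exp (2 * C₀) := by
      apply Real.one_le_exp
      have : 0 ≤ Real.log (m / k₀) := Real.log_nonneg (by rw [le_div_iff₀ hk₀]; linarith)
      positivity
    have e5 : Real.exp (2 * k * ‖x‖) ≤ Real.exp (2 * k * jap x) := by
      have := norm_le_jap x
      have hk0 : 0 ≤ k := hk₀.le.trans hk
      gcongr
    have hjp : 0 < jap x ^ (2 * m) := Real.rpow_pos_of_pos (jap_pos x) _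
    have hrp : 0 < ‖x‖ ^ (2 * m) := Real.rpow_pos_of_pos hr _
    have e6 : (‖x‖ ^ (2 * m))⁻¹ ≤ 2 ^ m * (jap x ^ (2 * m))⁻¹ := by
      rw [inv_le_iff_one_le_mul₀ hrp]
      have : (1 : ℝ) = (jap x ^ (2 * m)) * (jap x ^ (2 * m))⁻¹ := by field_simp
      calc (1 : ℝ) = (jap x ^ (2 * m)) * (jap x ^ (2 * m))⁻¹ := this
        _ ≤ (2 ^ m * ‖x‖ ^ (2 * m)) * (jap x ^ (2 * m))⁻¹ :=
            mul_le_mul_of_nonneg_right e3 (by positivity)
        _ = _ := by ring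
    rw [e1, e2, mul_inv]
    calc Real.exp (2 * k * ‖x‖) * ((‖x‖ ^ (2 * m))⁻¹ * ‖x‖⁻¹) * n x
        ≤ Real.exp (2 * k * jap x) * ((2 ^ m * (jap x ^ (2 * m))⁻¹) * ‖x‖⁻¹) * n x := by gcongr
      _ ≤ Real.exp (2 * k * jap x) * ((2 ^ m * (jap x ^ (2 * m))⁻¹) * ‖x‖⁻¹) * n x *
            Real.exp (2 * C₀) := le_mul_of_one_le_right (by positivity) e4
      _ = _ := by ring
  have hmeas : AEStronglyMeasurable
      (fun x => Real.exp (2 * k * ‖x‖) * (‖x‖ ^ (2 * m + 1))⁻¹ * n x)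
      ((volume : Measure R3).restrict S) := by
    refine AEStronglyMeasurable.mul ?_ hi.1.restrict
    have : Measurable fun x : R3 => Real.exp (2 * k * ‖x‖) * (‖x‖ ^ (2 * m + 1))⁻¹ := by
      fun_prop
    exact this.aestronglyMeasurable
  have hI : IntegrableOn (fun x => Real.exp (2 * k * ‖x‖) * (‖x‖ ^ (2 * m + 1))⁻¹ * n x) S := by
    refine (hlim.1.const_mul (2 ^ m)).mono' hmeas ?_
    filter_upwards [ae_restrict_mem hSm, ae_restrict_of_ae hn] with x hxS hx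
    have h1 : 0 ≤ Real.exp (2 * k * ‖x‖) * (‖x‖ ^ (2 * m + 1))⁻¹ * n x := by positivity
    rw [Real.norm_eq_abs, abs_of_nonneg h1]
    exact hcmp x hxS hx
  refine ⟨hI, ?_⟩
  calc ∫ x in S, Real.exp (2 * k * ‖x‖) * (‖x‖ ^ (2 * m + 1))⁻¹ * n x
      ≤ ∫ x in S, 2 ^ m * (Real.exp (ex k m C₀ (jap x)) ^ 2 * (n x / ‖x‖)) := by
        refine integral_mono_ae hI (hlim.1.const_mul _) ?_
        filter_upwards [ae_restrict_mem hSm, ae_restrict_of_ae hn] with x hxS hx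
        exact hcmp x hxS hx
    _ = 2 ^ m * ∫ x in S, Real.exp (ex k m C₀ (jap x)) ^ 2 * (n x / ‖x‖) :=
        integral_const_mul _ _
    _ ≤ _ := mul_le_mul_of_nonneg_left hlim.2 (by positivity)

/-- Agmon bound with the weight `e^{2k|x|} |x|⁻⁶`, for `9/20 ≤ k ≤ 1`. -/
theorem agmon_six (A : ℝ) :
    ∃ R₀ C : ℝ, 1 ≤ R₀ ∧ ∀ (k : ℝ) (n : R3 → ℝ), 9 / 20 ≤ k → k ≤ 1 → (∀ᵐ x, 0 ≤ n x) →
      Integrable n → Integrable (fun x => n x / ‖x‖) → ∫ x, n x ≤ A → ∫ x, n x / ‖x‖ ≤ A →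
      (∀ W : R3 → ℝ, Wt W → ∫ x, (k ^ 2 / 2 - 1 / ‖x‖) * W x ^ 2 * n x ≤
        (1 / 2) * ∫ x, ‖fderiv ℝ W x‖ ^ 2 * n x) →
      IntegrableOn (fun x => Real.exp (2 * k * ‖x‖) * (‖x‖ ^ 6)⁻¹ * n x) {x | R₀ ≤ ‖x‖} ∧
      ∫ x in {x | R₀ ≤ ‖x‖}, Real.exp (2 * k * ‖x‖) * (‖x‖ ^ 6)⁻¹ * n x ≤ C := by
  obtain ⟨R₀, C, hR, H⟩ := agmon (k₀ := 9 / 20) (m := 5 / 2) (A := A) (by norm_num) (by norm_num)
    (by norm_num)
  refine ⟨R₀, C, hR, fun k n hk hk1 hn hi hi1 hA hA1 hyp => ?_⟩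
  have h := H k n hk hk1 hn hi hi1 hA hA1 hyp
  have e : ∀ x : R3, ‖x‖ ^ (2 * (5 / 2 : ℝ) + 1) = ‖x‖ ^ 6 := fun x => by
    rw [← Real.rpow_natCast]
    norm_num
  simp only [e] at h
  exact h

/-- all polynomial moments are bounded, if `2/5 ≤ k` (that is `k²/2 ≥ 2/25`). -/
theorem moments (A : ℝ) (p : ℕ) :
    ∃ C : ℝ, ∀ (n : R3 → ℝ), (∀ᵐ x, 0 ≤ n x) →
      Integrable n → Integrable (fun x => n x / ‖x‖) → ∫ x, n x ≤ A → ∫ x, n x / ‖x‖ ≤ A →
      (∀ W : R3 → ℝ, Wt W → ∫ x, (2 / 25 - 1 / ‖x‖) * W x ^ 2 * n x ≤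
        (1 / 2) * ∫ x, ‖fderiv ℝ W x‖ ^ 2 * n x) →
      Integrable (fun x => ‖x‖ ^ p * n x) ∧ ∫ x, ‖x‖ ^ p * n x ≤ C := by
  obtain ⟨R₀, C, hR, H⟩ := agmon (k₀ := 2 / 5) (m := 3) (A := A) (by norm_num) (by norm_num)
    (by norm_num)
  set K : ℝ := ((p + 7).factorial : ℝ) * (5 / 4) ^ (p + 7) with hK
  refine ⟨R₀ ^ p * A + K * C, fun n hn hi hi1 hA hA1 hyp => ?_⟩
  have h := H (2 / 5) n le_rfl (by norm_num) hn hi hi1 hA hA1 (fun W hW => by
    have := hyp W hW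
    norm_num at this ⊢
    exact this)
  set S : Set R3 := {x | R₀ ≤ ‖x‖} with hS
  have hSm : MeasurableSet S := measurableSet_le measurable_const measurable_norm
  have hcmp : ∀ x : R3, x ∈ S → ‖x‖ ^ p ≤
      K * (Real.exp (2 * (2 / 5) * ‖x‖) * (‖x‖ ^ (2 * (3 : ℝ) + 1))⁻¹) := by
    intro x hx
    have hx1 : 1 ≤ ‖x‖ := hR.trans hx
    have hr : 0 < ‖x‖ := by linarith
    have e7 : ‖x‖ ^ (2 * (3 : ℝ) + 1) = ‖x‖ ^ 7 := by
      rw [← Real.rpow_natCast]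
      norm_num
    rw [e7, ← mul_assoc, ← div_eq_mul_inv, le_div_iff₀ (by positivity), ← pow_add]
    have h1 := Real.pow_div_factorial_le_exp (4 / 5 * ‖x‖) (by positivity) (p + 7)
    rw [div_le_iff₀ (by positivity), mul_pow] at h1
    have e8 : (2 * (2 / 5) * ‖x‖ : ℝ) = 4 / 5 * ‖x‖ := by ring
    rw [e8, hK]
    have h2 : ‖x‖ ^ (p + 7) = (5 / 4) ^ (p + 7) * ((4 / 5) ^ (p + 7) * ‖x‖ ^ (p + 7)) := by
      rw [← mul_assoc, ← mul_pow]
      norm_num
    rw [h2]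
    calc (5 / 4 : ℝ) ^ (p + 7) * ((4 / 5) ^ (p + 7) * ‖x‖ ^ (p + 7))
        ≤ (5 / 4 : ℝ) ^ (p + 7) * (Real.exp (4 / 5 * ‖x‖) * ((p + 7).factorial : ℝ)) := by
          gcongr
      _ = _ := by ring
  have hmeas : AEStronglyMeasurable (fun x => ‖x‖ ^ p * n x) (volume : Measure R3) :=
    ((measurable_norm.pow_const p).aestronglyMeasurable).mul hi.1
  have hI1 : IntegrableOn (fun x => ‖x‖ ^ p * n x) S := by
    refine (h.1.const_mul K).mono' hmeas.restrict ?_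
    filter_upwards [ae_restrict_mem hSm, ae_restrict_of_ae hn] with x hxS hx
    have h1 : 0 ≤ ‖x‖ ^ p * n x := by positivity
    rw [Real.norm_eq_abs, abs_of_nonneg h1]
    calc ‖x‖ ^ p * n x ≤ _ := mul_le_mul_of_nonneg_right (hcmp x hxS) hx
      _ = _ := by ring
  have hR0 : 0 ≤ R₀ := by linarith
  have hcmp2 : ∀ x : R3, x ∈ Sᶜ → ‖x‖ ^ p ≤ R₀ ^ p := by
    intro x hx
    have h1 : ¬ (R₀ ≤ ‖x‖) := hx
    exact pow_le_pow_left₀ (norm_nonneg _) (not_le.1 h1).le p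
  have hI2 : IntegrableOn (fun x => ‖x‖ ^ p * n x) Sᶜ := by
    refine ((hi.const_mul (R₀ ^ p)).integrableOn).mono' hmeas.restrict ?_
    filter_upwards [ae_restrict_mem hSm.compl, ae_restrict_of_ae hn] with x hxS hx
    have h1 : 0 ≤ ‖x‖ ^ p * n x := by positivity
    rw [Real.norm_eq_abs, abs_of_nonneg h1]
    exact mul_le_mul_of_nonneg_right (hcmp2 x hxS) hx
  have hI : Integrable (fun x => ‖x‖ ^ p * n x) := by
    rw [← integrableOn_univ, ← Set.compl_union_self S]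
    exact hI2.union hI1
  refine ⟨hI, ?_⟩
  rw [← integral_add_compl hSm hI, add_comm]
  refine add_le_add ?_ ?_
  · calc ∫ x in Sᶜ, ‖x‖ ^ p * n x ≤ ∫ x in Sᶜ, R₀ ^ p * n x := by
          refine integral_mono_ae hI2 (hi.const_mul (R₀ ^ p)).integrableOn ?_
          filter_upwards [ae_restrict_mem hSm.compl, ae_restrict_of_ae hn] with x hxS hx
          exact mul_le_mul_of_nonneg_right (hcmp2 x hxS) hx
      _ ≤ ∫ x, R₀ ^ p * n x := by
          refine setIntegral_le_integral (hi.const_mul _) ?_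
          filter_upwards [hn] with x hx
          simp only [Pi.zero_apply]
          positivity
      _ = R₀ ^ p * ∫ x, n x := integral_const_mul _ _
      _ ≤ R₀ ^ p * A := by gcongr
  · calc ∫ x in S, ‖x‖ ^ p * n x
        ≤ ∫ x in S, K * (Real.exp (2 * (2 / 5) * ‖x‖) * (‖x‖ ^ (2 * (3 : ℝ) + 1))⁻¹ * n x) := by
          refine integral_mono_ae hI1 (h.1.const_mul K) ?_
          filter_upwards [ae_restrict_mem hSm, ae_restrict_of_ae hn] with x hxS hx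
          calc ‖x‖ ^ p * n x ≤ _ := mul_le_mul_of_nonneg_right (hcmp x hxS) hx
            _ = _ := by ring
      _ = K * _ := integral_const_mul _ _
      _ ≤ K * C := by
          refine mul_le_mul_of_nonneg_left h.2 ?_
          positivity

end

end Vale.Agent.P363.R.B5
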