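import Vale.Agent.P363.H943.Pot
import Vale.Agent.P363.H382.Energy
import Vale.Agent.P363.R801.LowE
import Vale.Agent.P363.R.B5.h924.Agmon

/-! Block B5.1: the IMS localisation formula for ground states of the atom, with a weight that is
a function of the position of electron `0`, and its consequences. -/

namespace Vale.Agent.P363.R.B5

open MeasureTheory Filter Topology
open Vale.Agent.P363.Stmt
open Vale.Agent.P363.H382
open Vale.Agent.P363.H943
open Vale.Agent.P363.R801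
open Vale.Agent.P363.R.Sob
open Vale.Agent.P363.R.Top
open scoped ContDiff ENNReal ComplexConjugate

noncomputable section

variable {n : ℕ}

theorem norm_clm_sq (L : R3 →L[ℝ] ℝ) : ‖L‖ ^ 2 = ∑ k : Fin 3, (L (e3 k)) ^ 2 := by
  set v : R3 := (InnerProductSpace.toDual ℝ R3).symm L with hv
  have h1 : ‖L‖ = ‖v‖ := by rw [hv, LinearIsometryEquiv.norm_map]
  have h2 : ∀ w, L w = inner ℝ v w := fun w => by
    rw [hv, InnerProductSpace.toDual_symm_apply]
  rw [h1, EuclideanSpace.norm_sq_eq]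
  refine Finset.sum_congr rfl fun k _ => ?_
  rw [h2, e3, EuclideanSpace.inner_single_right]
  simp

theorem abs_fderiv_le (W : R3 → ℝ) (x : R3) (k : Fin 3) :
    |fderiv ℝ W x (e3 k)| ≤ ‖fderiv ℝ W x‖ := by
  have h := (fderiv ℝ W x).le_opNorm (e3 k)
  have h1 : ‖e3 k‖ = 1 := by simp [e3]
  rwa [h1, mul_one, Real.norm_eq_abs] at h

/-- a constant for the weight -/
def wc {W : R3 → ℝ} (hW : Wt W) : ℝ := max hW.bdd.choose hW.gbdd.choose

theorem wc_bdd {W : R3 → ℝ} (hW : Wt W) (x : R3) : |W x| ≤ wc hW :=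
  (hW.bdd.choose_spec x).trans (le_max_left _ _)

theorem wc_gbdd {W : R3 → ℝ} (hW : Wt W) (x : R3) : ‖fderiv ℝ W x‖ ≤ wc hW :=
  (hW.gbdd.choose_spec x).trans (le_max_right _ _)

/-- `W(z₀) u` -/
def mulW {W : R3 → ℝ} (hW : Wt W) (u : PState n) : PState n :=
  u.mulG W hW.smooth (wc hW) (wc_bdd hW) (fun k x => (abs_fderiv_le W x k).trans (wc_gbdd hW x))

@[simp] theorem mulW_amp {W : R3 → ℝ} (hW : Wt W) (u : PState n) (s) (z : Conf (n + 1)) :
    (mulW hW u).amp s z = W (z 0) * u.amp s z := rfl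

theorem mulW_grad {W : R3 → ℝ} (hW : Wt W) (u : PState n) (s) (i k) (z : Conf (n + 1)) :
    (mulW hW u).grad s i k z =
      (if i = 0 then (fderiv ℝ W (z 0) (e3 k) : ℂ) * u.amp s z else 0) +
        W (z 0) * u.grad s i k z := rfl

/-- a partially antisymmetric state as a family -/
def toFam (u : PState n) : Fam (n + 1) where
  amp := u.amp
  grad := u.grad
  amp_mem := u.amp_memLp
  grad_mem := u.grad_memLp
  wd := u.grad_wd

theorem re_sq_identity (a w : ℝ) (ψ g : ℂ) :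
    ‖(a : ℂ) * ψ + w * g‖ ^ 2 =
      (conj ((a : ℂ) * (w * ψ) + w * ((a : ℂ) * ψ + w * g)) * g).re + a ^ 2 * ‖ψ‖ ^ 2 := by
  rw [← Complex.normSq_eq_norm_sq, ← Complex.normSq_eq_norm_sq]
  simp only [Complex.normSq_apply, Complex.add_re, Complex.add_im, Complex.mul_re, Complex.mul_im,
    Complex.ofReal_re, Complex.ofReal_im, Complex.conj_re, Complex.conj_im, map_add, map_mul,
    Complex.conj_ofReal]
  ring

theorem re_sq_identity' (w : ℝ) (g : ℂ) :
    ‖(w : ℂ) * g‖ ^ 2 = (conj ((w : ℂ) * (w * g)) * g).re := by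
  have := re_sq_identity 0 w 0 g
  simpa using this

theorem sum_fin_succ_if {M : Type*} [AddCommMonoid M] (a : M) :
    ∑ i : Fin (n + 1), (if i = 0 then a else 0) = a := by
  simp

/-- integrability of a bounded continuous function of `z₀` against `|Ψ|²`. -/
theorem int_bdd_sq (Ψ : ElectronState (n + 1)) (s : Fin (n + 1) → Fin 2) {v : R3 → ℝ}
    (hv : Continuous v) {C : ℝ} (hC : ∀ x, |v x| ≤ C) :
    Integrable (fun z : Conf (n + 1) => v (z 0) * ‖Ψ.amp s z‖ ^ 2) :=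
  (integrable_normSq Ψ s).bdd_mul (c := C)
    (hv.comp (continuous_apply 0)).aestronglyMeasurable
    (Eventually.of_forall fun z => by rw [Real.norm_eq_abs]; exact hC _)

/-- the gradient term -/
def gradT (W : R3 → ℝ) (Ψ : ElectronState (n + 1)) : ℝ :=
  ∑ s, ∫ z : Conf (n + 1), ‖fderiv ℝ W (z 0)‖ ^ 2 * ‖Ψ.amp s z‖ ^ 2

/-- **IMS formula.** -/
theorem ims {lam : ℝ} {Ψ : ElectronState (n + 1)} (h : IsGroundState (pot lam) Ψ)
    {W : R3 → ℝ} (hW : Wt W) :
    (mulW hW (PState.ofES Ψ)).en lam =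
      energy (pot lam) Ψ * (mulW hW (PState.ofES Ψ)).nsq + (1 / 2) * gradT W Ψ := by
  set u := PState.ofES Ψ with hu
  have hEL := el_pot h (toFam (mulW hW (mulW hW u)))
  have hELr := congrArg Complex.re hEL
  rw [Complex.re_ofReal_mul] at hELr
  -- kinetic terms
  have ig : ∀ s i k, Integrable (fun z => conj ((mulW hW (mulW hW u)).grad s i k z) *
      Ψ.grad s i k z) := fun s i k =>
    Fam.int_grad (toFam (mulW hW (mulW hW u))) (fam Ψ) s i k
  have hgc : Continuous (fderiv ℝ W) := hW.smooth.continuous_fderiv (by simp)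
  have ia : ∀ s (k : Fin 3), Integrable (fun z : Conf (n + 1) =>
      (fderiv ℝ W (z 0) (e3 k)) ^ 2 * ‖Ψ.amp s z‖ ^ 2) := fun s k => by
    refine int_bdd_sq Ψ s (v := fun x => (fderiv ℝ W x (e3 k)) ^ 2) ?_ (C := wc hW ^ 2) ?_
    · exact (hgc.clm_apply continuous_const).pow 2
    · intro x
      rw [abs_of_nonneg (sq_nonneg _), ← sq_abs]
      exact pow_le_pow_left₀ (abs_nonneg _) ((abs_fderiv_le W x k).trans (wc_gbdd hW x)) 2
  have kin1 : ∀ s i k, ∫ z, ‖(mulW hW u).grad s i k z‖ ^ 2 =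
      (∫ z, conj ((mulW hW (mulW hW u)).grad s i k z) * Ψ.grad s i k z).re +
        if i = 0 then ∫ z : Conf (n + 1), (fderiv ℝ W (z 0) (e3 k)) ^ 2 * ‖Ψ.amp s z‖ ^ 2
          else 0 := by
    intro s i k
    have e1 : (∫ z, conj ((mulW hW (mulW hW u)).grad s i k z) * Ψ.grad s i k z).re =
        ∫ z, (conj ((mulW hW (mulW hW u)).grad s i k z) * Ψ.grad s i k z).re :=
      (integral_re (ig s i k)).symm
    rw [e1]
    by_cases hi : i = 0
    · subst hi
      simp only [if_true]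
      have igr : Integrable (fun z => (conj ((mulW hW (mulW hW u)).grad s 0 k z) *
        Ψ.grad s 0 k z).re) := (ig s 0 k).re
      rw [← integral_add igr (ia s k)]
      refine integral_congr_ae (Eventually.of_forall fun z => ?_)
      simp only [mulW_grad, mulW_amp, if_true]
      exact re_sq_identity _ _ _ _
    · simp only [hi, if_false, add_zero]
      refine integral_congr_ae (Eventually.of_forall fun z => ?_)
      simp only [mulW_grad, hi, if_false, zero_add]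
      exact re_sq_identity' _ _
  have pot1 : ∀ s, ∫ z, pot lam z * ‖(mulW hW u).amp s z‖ ^ 2 =
      (∫ z, (pot lam z : ℂ) * (conj ((mulW hW (mulW hW u)).amp s z) * Ψ.amp s z)).re := by
    intro s
    have e1 : (∫ z, (pot lam z : ℂ) * (conj ((mulW hW (mulW hW u)).amp s z) * Ψ.amp s z)).re =
        ∫ z, ((pot lam z : ℂ) * (conj ((mulW hW (mulW hW u)).amp s z) * Ψ.amp s z)).re :=
      (integral_re (Fam.int_pot (adm_pot lam) (toFam (mulW hW (mulW hW u))) (fam Ψ) s)).symm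
    rw [e1]
    refine integral_congr_ae (Eventually.of_forall fun z => ?_)
    simp only [mulW_amp, Complex.re_ofReal_mul]
    rw [re_sq_identity']
    rfl
  have inn1 : (mulW hW u).nsq = (Fam.inn (toFam (mulW hW (mulW hW u))) (fam Ψ)).re := by
    unfold PState.nsq Fam.inn
    rw [Complex.re_sum]
    refine Finset.sum_congr rfl fun s _ => ?_
    have e1 : (∫ z, conj ((toFam (mulW hW (mulW hW u))).amp s z) * (fam Ψ).amp s z).re =
        ∫ z, (conj ((toFam (mulW hW (mulW hW u))).amp s z) * (fam Ψ).amp s z).re :=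
      (integral_re (Fam.int_amp (toFam (mulW hW (mulW hW u))) (fam Ψ) s)).symm
    rw [e1]
    refine integral_congr_ae (Eventually.of_forall fun z => ?_)
    simp only [mulW_amp]
    rw [re_sq_identity']
    rfl
  have formre : (Fam.form (pot lam) (toFam (mulW hW (mulW hW u))) (fam Ψ)).re =
      (1 / 2) * (∑ s, ∑ i, ∑ k,
        (∫ z, conj ((mulW hW (mulW hW u)).grad s i k z) * Ψ.grad s i k z).re) +
      ∑ s, (∫ z, (pot lam z : ℂ) * (conj ((mulW hW (mulW hW u)).amp s z) * Ψ.amp s z)).re := by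
    unfold Fam.form Fam.kin Fam.pot
    rw [Complex.add_re, Complex.re_sum]
    congr 1
    have : (1 / 2 : ℂ) = ((1 / 2 : ℝ) : ℂ) := by push_cast; ring
    rw [this, Complex.re_ofReal_mul, Complex.re_sum]
    congr 1
    refine Finset.sum_congr rfl fun s _ => ?_
    rw [Complex.re_sum]
    refine Finset.sum_congr rfl fun i _ => ?_
    rw [Complex.re_sum]
    rfl
  have gt : gradT W Ψ = ∑ s, ∑ i : Fin (n + 1), ∑ k : Fin 3, (if i = 0 then
      ∫ z : Conf (n + 1), (fderiv ℝ W (z 0) (e3 k)) ^ 2 * ‖Ψ.amp s z‖ ^ 2 else 0) := by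
    unfold gradT
    refine Finset.sum_congr rfl fun s _ => ?_
    have e1 : ∑ i : Fin (n + 1), ∑ k : Fin 3, (if i = 0 then
        ∫ z : Conf (n + 1), (fderiv ℝ W (z 0) (e3 k)) ^ 2 * ‖Ψ.amp s z‖ ^ 2 else 0) =
        ∑ k : Fin 3, ∫ z : Conf (n + 1), (fderiv ℝ W (z 0) (e3 k)) ^ 2 * ‖Ψ.amp s z‖ ^ 2 := by
      rw [Finset.sum_comm]
      refine Finset.sum_congr rfl fun k _ => sum_fin_succ_if _
    rw [e1, ← integral_finsetSum _ fun k _ => ia s k]
    refine integral_congr_ae (Eventually.of_forall fun z => ?_)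
    simp only [norm_clm_sq, Finset.sum_mul]
  unfold PState.en PState.kin
  rw [inn1, ← hELr, formre, gt]
  simp only [kin1, pot1, Finset.sum_add_distrib]
  ring

/-! ### lower bound of the energy by the kinetic energy -/

theorem coul_one (u : PState n) (s : Fin (n + 1) → Fin 2) (i : Fin (n + 1)) {η : ℝ} (hη : 0 < η) :
    ∫ z, ‖u.amp s z‖ ^ 2 / ‖z i‖ ≤
      η * (∑ k, ∫ z, ‖u.grad s i k z‖ ^ 2) + (1 / η) * ∫ z, ‖u.amp s z‖ ^ 2 := by
  have h := (coulomb_le (μ := (volume : Measure (Conf (n + 1)))) (prj i) 0 (fun k => dir i k)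
    (fun k => prj_dir i k) (u.amp_memLp s) (fun k => u.grad_memLp s i k)
    (fun k => u.grad_wd s i k)).2 η hη
  simpa [prj] using h

theorem PState_int_rep (u : PState n) (s : Fin (n + 1) → Fin 2) :
    Integrable (fun z => rep z * ‖u.amp s z‖ ^ 2) :=
  adm_rep.int _ _ (u.amp_memLp s) (u.grad_memLp s) (u.grad_wd s)

theorem en_ge (u : PState n) {lam : ℝ} (hlam : 0 ≤ lam) :
    (1 / 4) * u.kin - 4 * (n + 1) * u.nsq ≤ u.en lam := by
  have hp : ∀ s, -(∑ i, ∫ z, ‖u.amp s z‖ ^ 2 / ‖z i‖) ≤ ∫ z, pot lam z * ‖u.amp s z‖ ^ 2 := by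
    intro s
    have e : ∫ z, pot lam z * ‖u.amp s z‖ ^ 2 =
        -(∑ i, ∫ z, ‖u.amp s z‖ ^ 2 / ‖z i‖) + lam * ∫ z, rep z * ‖u.amp s z‖ ^ 2 := by
      have i1 : Integrable (fun z => -∑ i, ‖u.amp s z‖ ^ 2 / ‖z i‖) :=
        (integrable_finsetSum _ fun i _ => u.int_one s i).neg
      rw [← integral_finsetSum _ fun i _ => u.int_one s i, ← integral_neg, ← integral_const_mul,
        ← integral_add i1 ((PState_int_rep u s).const_mul lam)]
      refine integral_congr_ae (Eventually.of_forall fun z => ?_)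
      simp only
      unfold pot
      rw [add_mul, Finset.sum_mul, ← Finset.sum_neg_distrib]
      congr 1
      · exact Finset.sum_congr rfl fun i _ => by ring
      · ring
    have h0 : 0 ≤ ∫ z, rep z * ‖u.amp s z‖ ^ 2 :=
      integral_nonneg fun z => mul_nonneg (rep_nonneg z) (by positivity)
    rw [e]
    have := mul_nonneg hlam h0
    linarith
  have hk : ∀ s, ∑ i, ∫ z, ‖u.amp s z‖ ^ 2 / ‖z i‖ ≤
      (1 / 4) * (∑ i, ∑ k, ∫ z, ‖u.grad s i k z‖ ^ 2) + 4 * (n + 1) * ∫ z, ‖u.amp s z‖ ^ 2 := by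
    intro s
    have h1 : ∀ i : Fin (n + 1), ∫ z, ‖u.amp s z‖ ^ 2 / ‖z i‖ ≤
        (1 / 4) * (∑ k, ∫ z, ‖u.grad s i k z‖ ^ 2) + 4 * ∫ z, ‖u.amp s z‖ ^ 2 := by
      intro i
      have := coul_one u s i (η := 1 / 4) (by norm_num)
      norm_num at this ⊢
      exact this
    refine (Finset.sum_le_sum fun i _ => h1 i).trans (le_of_eq ?_)
    rw [Finset.sum_add_distrib, ← Finset.mul_sum]
    simp
    ring
  unfold PState.en PState.kin PState.nsq
  have h2 : -((1 / 4) * (∑ s, ∑ i, ∑ k, ∫ z, ‖u.grad s i k z‖ ^ 2) +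
      4 * (n + 1) * ∑ s, ∫ z, ‖u.amp s z‖ ^ 2) ≤ ∑ s, ∫ z, pot lam z * ‖u.amp s z‖ ^ 2 := by
    rw [Finset.mul_sum, Finset.mul_sum, ← Finset.sum_add_distrib, ← Finset.sum_neg_distrib]
    refine Finset.sum_le_sum fun s _ => ?_
    exact (neg_le_neg (hk s)).trans (hp s)
  linarith

/-! ### weighted inequality for the density -/

theorem inv_density_int (Ψ : ElectronState (n + 1)) :
    Integrable (fun x => density Ψ x / ‖x‖) := by
  have h := integrable_mul_density Ψ (fun x => ‖x‖⁻¹) (fun s => es_int_one Ψ s 0)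
  refine h.congr (Eventually.of_forall fun x => ?_)
  simp only [div_eq_mul_inv]
  ring

/-- the weighted inequality that is the input of `agmon`. -/
theorem weighted {lam : ℝ} (hlam : 0 ≤ lam) {Ψ : ElectronState (n + 1)}
    (h : IsGroundState (pot lam) Ψ) {E' : ℝ}
    (hE : ∀ χ : ElectronState n, E' * normSq χ ≤ energy (pot lam) χ)
    {W : R3 → ℝ} (hW : Wt W) :
    ∫ x, ((E' - energy (pot lam) Ψ) - 1 / ‖x‖) * W x ^ 2 * density Ψ x ≤
      (1 / 2) * ∫ x, ‖fderiv ℝ W x‖ ^ 2 * density Ψ x := by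
  have h1 := ims h hW
  have h2 := (mulW hW (PState.ofES Ψ)).h2' hlam E' hE
  have hk0 : 0 ≤ (mulW hW (PState.ofES Ψ)).kin0 := by
    unfold PState.kin0
    positivity
  set E := energy (pot lam) Ψ with hE0
  have hWc : Continuous W := hW.smooth.continuous
  have hgc : Continuous (fderiv ℝ W) := hW.smooth.continuous_fderiv (by simp)
  -- integrability
  have iW : ∀ s, Integrable (fun z : Conf (n + 1) => W (z 0) ^ 2 * ‖Ψ.amp s z‖ ^ 2) := fun s =>
    int_bdd_sq Ψ s (v := fun x => W x ^ 2) (hWc.pow 2) (C := wc hW ^ 2) fun x => by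
      rw [abs_of_nonneg (sq_nonneg _), ← sq_abs]
      exact pow_le_pow_left₀ (abs_nonneg _) (wc_bdd hW x) 2
  have iG : ∀ s, Integrable (fun z : Conf (n + 1) => ‖fderiv ℝ W (z 0)‖ ^ 2 * ‖Ψ.amp s z‖ ^ 2) :=
    fun s => int_bdd_sq Ψ s (v := fun x => ‖fderiv ℝ W x‖ ^ 2) (hgc.norm.pow 2)
      (C := wc hW ^ 2) fun x => by
      rw [abs_of_nonneg (sq_nonneg _)]
      exact pow_le_pow_left₀ (norm_nonneg _) (wc_gbdd hW x) 2
  have iI : ∀ s, Integrable (fun z : Conf (n + 1) =>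
      (1 / ‖z 0‖ * W (z 0) ^ 2) * ‖Ψ.amp s z‖ ^ 2) := fun s => by
    have hh := ((es_int_one Ψ s 0).bdd_mul (c := wc hW ^ 2)
      (f := fun z : Conf (n + 1) => W (z 0) ^ 2)
      ((hWc.comp (continuous_apply 0)).pow 2).aestronglyMeasurable
      (Eventually.of_forall fun z => by
        rw [Real.norm_eq_abs, abs_of_nonneg (sq_nonneg _), ← sq_abs]
        exact pow_le_pow_left₀ (abs_nonneg _) (wc_bdd hW _) 2))
    refine hh.congr (Eventually.of_forall fun z => ?_)
    simp only [one_div]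
    ring
  -- rewriting everything as integrals against the density
  have c1 : (n + 1 : ℝ) * potE (fun z : Conf (n + 1) => ((E' - E) - 1 / ‖z 0‖) * W (z 0) ^ 2) Ψ =
      ∫ x, ((E' - E) - 1 / ‖x‖) * W x ^ 2 * density Ψ x := by
    refine potE_zero_eq Ψ (fun x => ((E' - E) - 1 / ‖x‖) * W x ^ 2) fun s => ?_
    refine (((iW s).const_mul (E' - E)).sub (iI s)).congr (Eventually.of_forall fun z => ?_)
    simp only [Pi.sub_apply]
    ring
  have c2 : (n + 1 : ℝ) * potE (fun z : Conf (n + 1) => ‖fderiv ℝ W (z 0)‖ ^ 2) Ψ =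
      ∫ x, ‖fderiv ℝ W x‖ ^ 2 * density Ψ x :=
    potE_zero_eq Ψ (fun x => ‖fderiv ℝ W x‖ ^ 2) iG
  rw [← c1, ← c2]
  have c3 : potE (fun z : Conf (n + 1) => ((E' - E) - 1 / ‖z 0‖) * W (z 0) ^ 2) Ψ =
      (E' - E) * (mulW hW (PState.ofES Ψ)).nsq -
        ∑ s, ∫ z, ‖(mulW hW (PState.ofES Ψ)).amp s z‖ ^ 2 / ‖z 0‖ := by
    unfold potE PState.nsq
    rw [Finset.mul_sum, ← Finset.sum_sub_distrib]
    refine Finset.sum_congr rfl fun s _ => ?_
    have e1 : ∫ z, ‖(mulW hW (PState.ofES Ψ)).amp s z‖ ^ 2 =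
        ∫ z : Conf (n + 1), W (z 0) ^ 2 * ‖Ψ.amp s z‖ ^ 2 := by
      refine integral_congr_ae (Eventually.of_forall fun z => ?_)
      simp only [mulW_amp, norm_mul, Complex.norm_real, mul_pow, Real.norm_eq_abs, sq_abs]
      rfl
    have e2 : ∫ z, ‖(mulW hW (PState.ofES Ψ)).amp s z‖ ^ 2 / ‖z 0‖ =
        ∫ z : Conf (n + 1), (1 / ‖z 0‖ * W (z 0) ^ 2) * ‖Ψ.amp s z‖ ^ 2 := by
      refine integral_congr_ae (Eventually.of_forall fun z => ?_)
      simp only [mulW_amp, norm_mul, Complex.norm_real, mul_pow, Real.norm_eq_abs, sq_abs,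
        PState.ofES]
      ring
    rw [e1, e2, ← integral_const_mul, ← integral_sub ((iW s).const_mul _) (iI s)]
    refine integral_congr_ae (Eventually.of_forall fun z => ?_)
    simp only
    ring
  have c4 : potE (fun z : Conf (n + 1) => ‖fderiv ℝ W (z 0)‖ ^ 2) Ψ = gradT W Ψ := rfl
  rw [c3, c4]
  have h3 : (E' - E) * (mulW hW (PState.ofES Ψ)).nsq -
      ∑ s, ∫ z, ‖(mulW hW (PState.ofES Ψ)).amp s z‖ ^ 2 / ‖z 0‖ ≤ (1 / 2) * gradT W Ψ := by
    linarith
  have h4 : (0 : ℝ) ≤ (n : ℝ) + 1 := by positivity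
  calc _ ≤ ((n : ℝ) + 1) * ((1 / 2) * gradT W Ψ) := mul_le_mul_of_nonneg_left h3 h4
    _ = _ := by ring

end

end Vale.Agent.P363.R.B5
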