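import Vale.Agent.P363.R.B5.h924.ShellDefs
import Vale.Agent.P363.R.Sob.S06

/-! Block B5.7, part I: differential inequalities for densities. -/

namespace Vale.Agent.P363.R.B5

open MeasureTheory Filter Topology
open Vale.Agent.P363.Stmt
open Vale.Agent.P363.H382
open Vale.Agent.P363.H943
open Vale.Agent.P363.R801
open Vale.Agent.P363.R.Sob
open Vale.Agent.P363.R.Top
open scoped ContDiff ENNReal ComplexConjugate

noncomputable section

variable {n : ℕ}

theorem wt_of_test {ψ : R3 → ℝ} (h : Test ψ) : Wt ψ := by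
  refine ⟨h.1, ?_, ?_⟩
  · obtain ⟨C, hC⟩ := h.2.exists_bound_of_continuous h.continuous
    exact ⟨C, hC⟩
  · have h1 : HasCompactSupport (fderiv ℝ ψ) := h.2.fderiv (𝕜 := ℝ)
    exact h1.exists_bound_of_continuous (h.1.continuous_fderiv (by simp))

/-- integration by parts in the variable `z₀` -/
theorem cross (u : PState n) (s : Spn (n + 1)) (k : Fin 3) {V : R3 → ℝ} (hV : Wt V) :
    2 * (∫ z : Conf (n + 1), V (z 0) * (conj (u.amp s z) * u.grad s 0 k z).re) =
      - ∫ z : Conf (n + 1), fderiv ℝ V (z 0) (e3 k) * ‖u.amp s z‖ ^ 2 := by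
  have hc : IsWD volume (dir 0 k) (fun z => Complex.conjCLE.toContinuousLinearMap (u.amp s z))
      (fun z => Complex.conjCLE.toContinuousLinearMap (u.grad s 0 k z)) :=
    (u.grad_wd s 0 k).clm_comp _
      (fun φ hφ => hφ.integrable_smul ((u.amp_memLp s).locallyIntegrable (by norm_num)))
      (fun φ hφ => hφ.integrable_smul ((u.grad_memLp s 0 k).locallyIntegrable (by norm_num)))
  have m1 : MemLp (fun z => Complex.conjCLE.toContinuousLinearMap (u.amp s z)) 2 volume :=
    (u.amp_memLp s).star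
  have m2 : MemLp (fun z => Complex.conjCLE.toContinuousLinearMap (u.grad s 0 k z)) 2 volume :=
    (u.grad_memLp s 0 k).star
  have key := IsWD.integral_bilin (ContinuousLinearMap.mul ℝ ℂ) m1 m2
    ((mulW hV u).amp_memLp s) ((mulW hV u).grad_memLp s 0 k) hc ((mulW hV u).grad_wd s 0 k)
  simp only [ContinuousLinearMap.mul_apply', ContinuousLinearEquiv.coe_coe,
    Complex.conjCLE_apply, mulW_amp, mulW_grad, if_true] at key
  -- real parts
  have hVc : Continuous V := hV.smooth.continuous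
  have hgc : Continuous fun x => fderiv ℝ V x (e3 k) :=
    (hV.smooth.continuous_fderiv (by simp)).clm_apply continuous_const
  have i0 : Integrable (fun z : Conf (n + 1) => conj (u.amp s z) * u.grad s 0 k z) :=
    (u.amp_memLp s).star.integrable_mul (u.grad_memLp s 0 k)
  have i0' : Integrable (fun z : Conf (n + 1) => conj (u.grad s 0 k z) * u.amp s z) :=
    (u.grad_memLp s 0 k).star.integrable_mul (u.amp_memLp s)
  have i1 : Integrable (fun z : Conf (n + 1) =>
      V (z 0) * (conj (u.amp s z) * u.grad s 0 k z).re) :=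
    i0.re.bdd_mul (c := wc hV) (hVc.comp (continuous_apply 0)).aestronglyMeasurable
      (Eventually.of_forall fun z => by rw [Real.norm_eq_abs]; exact wc_bdd hV _)
  have isq : Integrable (fun z : Conf (n + 1) => ‖u.amp s z‖ ^ 2) :=
    (u.amp_memLp s).integrable_norm_pow (by norm_num)
  have i2 : Integrable (fun z : Conf (n + 1) =>
      fderiv ℝ V (z 0) (e3 k) * ‖u.amp s z‖ ^ 2) :=
    isq.bdd_mul (c := wc hV) (hgc.comp (continuous_apply 0)).aestronglyMeasurable
      (Eventually.of_forall fun z => by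
        rw [Real.norm_eq_abs]
        exact (abs_fderiv_le V _ k).trans (wc_gbdd hV _))
  have iL : Integrable (fun z : Conf (n + 1) =>
      conj (u.grad s 0 k z) * ((V (z 0) : ℂ) * u.amp s z)) :=
    (u.grad_memLp s 0 k).star.integrable_mul ((mulW hV u).amp_memLp s)
  have iR : Integrable (fun z : Conf (n + 1) =>
      conj (u.amp s z) * ((fderiv ℝ V (z 0) (e3 k) : ℂ) * u.amp s z +
        (V (z 0) : ℂ) * u.grad s 0 k z)) := by
    have : Integrable (fun z : Conf (n + 1) => conj (u.amp s z) * (mulW hV u).grad s 0 k z) :=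
      (u.amp_memLp s).star.integrable_mul ((mulW hV u).grad_memLp s 0 k)
    simpa only [mulW_grad, if_true] using this
  have keyre := congrArg Complex.re key
  rw [Complex.neg_re] at keyre
  have eL : (∫ z : Conf (n + 1), conj (u.grad s 0 k z) * ((V (z 0) : ℂ) * u.amp s z)).re =
      ∫ z : Conf (n + 1), V (z 0) * (conj (u.amp s z) * u.grad s 0 k z).re := by
    have e1 : (∫ z : Conf (n + 1), conj (u.grad s 0 k z) * ((V (z 0) : ℂ) * u.amp s z)).re =
      ∫ z : Conf (n + 1), (conj (u.grad s 0 k z) * ((V (z 0) : ℂ) * u.amp s z)).re :=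
      (integral_re iL).symm
    rw [e1]
    refine integral_congr_ae (Eventually.of_forall fun z => ?_)
    simp only [Complex.mul_re, Complex.mul_im, Complex.conj_re, Complex.conj_im,
      Complex.ofReal_re, Complex.ofReal_im]
    ring
  have eR : (∫ z : Conf (n + 1), conj (u.amp s z) * ((fderiv ℝ V (z 0) (e3 k) : ℂ) * u.amp s z +
        (V (z 0) : ℂ) * u.grad s 0 k z)).re =
      (∫ z : Conf (n + 1), fderiv ℝ V (z 0) (e3 k) * ‖u.amp s z‖ ^ 2) +
      ∫ z : Conf (n + 1), V (z 0) * (conj (u.amp s z) * u.grad s 0 k z).re := by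
    have e1 : (∫ z : Conf (n + 1), conj (u.amp s z) *
        ((fderiv ℝ V (z 0) (e3 k) : ℂ) * u.amp s z + (V (z 0) : ℂ) * u.grad s 0 k z)).re =
      ∫ z : Conf (n + 1), (conj (u.amp s z) *
        ((fderiv ℝ V (z 0) (e3 k) : ℂ) * u.amp s z + (V (z 0) : ℂ) * u.grad s 0 k z)).re :=
      (integral_re iR).symm
    rw [e1, ← integral_add i2 i1]
    refine integral_congr_ae (Eventually.of_forall fun z => ?_)
    simp only [← Complex.normSq_eq_norm_sq, Complex.normSq_apply, Complex.mul_re, Complex.mul_im,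
      Complex.conj_re, Complex.conj_im, Complex.add_re, Complex.add_im,
      Complex.ofReal_re, Complex.ofReal_im]
    ring
  rw [eL, eR] at keyre
  linarith

theorem re_sq_identity2 (a w : ℝ) (ψ g : ℂ) :
    (conj ((a : ℂ) * (w * ψ) + w * ((a : ℂ) * ψ + w * g)) * g).re =
      w ^ 2 * ‖g‖ ^ 2 + (2 * w * a) * (conj ψ * g).re := by
  rw [← Complex.normSq_eq_norm_sq]
  simp only [Complex.normSq_apply, Complex.add_re, Complex.add_im, Complex.mul_re, Complex.mul_im,
    Complex.ofReal_re, Complex.ofReal_im, Complex.conj_re, Complex.conj_im, map_add, map_mul,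
    Complex.conj_ofReal]
  ring

theorem fderiv_sq_apply {ψ : R3 → ℝ} (h : Test ψ) (x : R3) (v : R3) :
    fderiv ℝ (fun y => ψ y ^ 2) x v = 2 * ψ x * fderiv ℝ ψ x v := by
  have h1 : HasFDerivAt ψ (fderiv ℝ ψ x) x := (h.differentiable x).hasFDerivAt
  have h2 := h1.pow 2
  rw [h2.fderiv]
  simp

/-- squared norm weighted by `ψ(z₀)²` -/
def wnsq (ψ : R3 → ℝ) (u : PState n) : ℝ := ∑ s, ∫ z : Conf (n + 1), ψ (z 0) ^ 2 * ‖u.amp s z‖ ^ 2

theorem test_fderiv_wt {ψ : R3 → ℝ} (h : Test ψ) (k : Fin 3) :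
    Wt (fun x => fderiv ℝ (fun y => ψ y ^ 2) x (e3 k)) := by
  have h2 : Test (fun y => ψ y ^ 2) := by
    have := h.mul h.1
    simpa only [← pow_two] using this
  exact wt_of_test (h2.fderiv (e3 k))

/-- the differential inequality, general form. -/
theorem sub_gen {lam : ℝ} (hlam : 0 ≤ lam) (u : PState n) (E : ℝ)
    (f : Spn (n + 1) → Conf (n + 1) → ℂ) (hf : ∀ s, MemLp (f s) 2 volume)
    (hEL : ∀ F : Fam (n + 1), Fam.form (pot lam) F (toFam u) =
      (E : ℂ) * Fam.inn F (toFam u) + ∑ s, ∫ z, conj (F.amp s z) * f s z)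
    (E' : ℝ) (hE' : ∀ χ : ElectronState n, E' * normSq χ ≤ energy (pot lam) χ)
    {ψ : R3 → ℝ} (hψ : Test ψ) {r : ℝ} (hr : 0 < r) (hsupp : ∀ x, ‖x‖ ≤ r → ψ x = 0) :
    -(∑ s, ∫ z : Conf (n + 1), lap (fun y => ψ y ^ 2) (z 0) * ‖u.amp s z‖ ^ 2) ≤
      4 * (E - E' + 1 / r) * wnsq ψ u +
        4 * ∑ s, ∫ z : Conf (n + 1), ψ (z 0) ^ 2 * (‖u.amp s z‖ * ‖f s z‖) := by
  have hW : Wt ψ := wt_of_test hψ
  have hψc : Continuous ψ := hψ.continuous
  set w := mulW hW u with hw
  set F := toFam (mulW hW w) with hF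
  set V : Fin 3 → R3 → ℝ := fun k x => fderiv ℝ (fun y => ψ y ^ 2) x (e3 k) with hVdef
  have hV : ∀ k, Wt (V k) := fun k => test_fderiv_wt hψ k
  have hELr := congrArg Complex.re (hEL F)
  -- integrability
  have iamp : ∀ s, Integrable (fun z => ‖u.amp s z‖ ^ 2) := fun s =>
    (u.amp_memLp s).integrable_norm_pow (by norm_num)
  have igr : ∀ s i k, Integrable (fun z => ‖u.grad s i k z‖ ^ 2) := fun s i k =>
    (u.grad_memLp s i k).integrable_norm_pow (by norm_num)
  have bψ : ∀ z : Conf (n + 1), ‖ψ (z 0) ^ 2‖ ≤ wc hW ^ 2 := fun z => by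
    rw [Real.norm_eq_abs, abs_of_nonneg (sq_nonneg _), ← sq_abs]
    exact pow_le_pow_left₀ (abs_nonneg _) (wc_bdd hW _) 2
  have cψ : Continuous fun z : Conf (n + 1) => ψ (z 0) ^ 2 :=
    (hψc.comp (continuous_apply 0)).pow 2
  have iψ : ∀ {g : Conf (n + 1) → ℝ}, Integrable g → Integrable fun z => ψ (z 0) ^ 2 * g z :=
    fun hg => hg.bdd_mul cψ.aestronglyMeasurable (Eventually.of_forall bψ)
  have i0 : ∀ s k, Integrable (fun z : Conf (n + 1) => conj (u.amp s z) * u.grad s 0 k z) :=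
    fun s k => (u.amp_memLp s).star.integrable_mul (u.grad_memLp s 0 k)
  have iV : ∀ s k, Integrable (fun z : Conf (n + 1) =>
      V k (z 0) * (conj (u.amp s z) * u.grad s 0 k z).re) := fun s k =>
    (i0 s k).re.bdd_mul (c := wc (hV k))
      ((hV k).smooth.continuous.comp (continuous_apply 0)).aestronglyMeasurable
      (Eventually.of_forall fun z => by rw [Real.norm_eq_abs]; exact wc_bdd (hV k) _)
  -- kinetic terms
  have kin1 : ∀ s i k, (∫ z, conj (F.grad s i k z) * (toFam u).grad s i k z).re =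
      (∫ z, ψ (z 0) ^ 2 * ‖u.grad s i k z‖ ^ 2) +
        if i = 0 then ∫ z : Conf (n + 1), V k (z 0) * (conj (u.amp s z) * u.grad s 0 k z).re
          else 0 := by
    intro s i k
    have e1 : (∫ z, conj (F.grad s i k z) * (toFam u).grad s i k z).re =
        ∫ z, (conj (F.grad s i k z) * (toFam u).grad s i k z).re :=
      (integral_re (Fam.int_grad F (toFam u) s i k)).symm
    rw [e1]
    by_cases hi : i = 0
    · subst hi
      simp only [if_true]
      rw [← integral_add (iψ (igr s 0 k)) (iV s k)]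
      refine integral_congr_ae (Eventually.of_forall fun z => ?_)
      simp only [hF, toFam, hw, mulW_grad, mulW_amp, if_true, hVdef, fderiv_sq_apply hψ]
      exact re_sq_identity2 _ _ _ _
    · simp only [hi, if_false, add_zero]
      refine integral_congr_ae (Eventually.of_forall fun z => ?_)
      simp only [hF, toFam, hw, mulW_grad, hi, if_false, zero_add]
      have := re_sq_identity2 0 (ψ (z 0)) 0 (u.grad s i k z)
      simpa using this
  -- potential terms
  have pot1 : ∀ s, (∫ z, (pot lam z : ℂ) * (conj (F.amp s z) * (toFam u).amp s z)).re =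
      ∫ z, pot lam z * ‖w.amp s z‖ ^ 2 := by
    intro s
    have e1 : (∫ z, (pot lam z : ℂ) * (conj (F.amp s z) * (toFam u).amp s z)).re =
        ∫ z, ((pot lam z : ℂ) * (conj (F.amp s z) * (toFam u).amp s z)).re :=
      (integral_re (Fam.int_pot (adm_pot lam) F (toFam u) s)).symm
    rw [e1]
    refine integral_congr_ae (Eventually.of_forall fun z => ?_)
    simp only [hF, toFam, hw, mulW_amp, Complex.re_ofReal_mul]
    rw [re_sq_identity']
  have inn1 : (Fam.inn F (toFam u)).re = w.nsq := by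
    unfold PState.nsq Fam.inn
    rw [Complex.re_sum]
    refine Finset.sum_congr rfl fun s _ => ?_
    have e1 : (∫ z, conj (F.amp s z) * (toFam u).amp s z).re =
        ∫ z, (conj (F.amp s z) * (toFam u).amp s z).re :=
      (integral_re (Fam.int_amp F (toFam u) s)).symm
    rw [e1]
    refine integral_congr_ae (Eventually.of_forall fun z => ?_)
    simp only [hF, toFam, hw, mulW_amp]
    rw [re_sq_identity']
  have hnsq : w.nsq = wnsq ψ u := by
    unfold PState.nsq wnsq
    refine Finset.sum_congr rfl fun s _ => integral_congr_ae (Eventually.of_forall fun z => ?_)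
    simp only [hw, mulW_amp, norm_mul, Complex.norm_real, mul_pow, Real.norm_eq_abs, sq_abs]
  have formre : (Fam.form (pot lam) F (toFam u)).re =
      (1 / 2) * (∑ s, ∑ i, ∑ k, (∫ z, conj (F.grad s i k z) * (toFam u).grad s i k z).re) +
      ∑ s, (∫ z, (pot lam z : ℂ) * (conj (F.amp s z) * (toFam u).amp s z)).re := by
    unfold Fam.form Fam.kin Fam.pot
    rw [Complex.add_re, Complex.re_sum]
    congr 1
    have : (1 / 2 : ℂ) = ((1 / 2 : ℝ) : ℂ) := by push_cast; ring
    rw [this, Complex.re_ofReal_mul, Complex.re_sum]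
    congr 1
    refine Finset.sum_congr rfl fun s _ => ?_
    rw [Complex.re_sum]
    refine Finset.sum_congr rfl fun i _ => ?_
    rw [Complex.re_sum]
  -- the source term
  have src1 : (∑ s, ∫ z, conj (F.amp s z) * f s z).re ≤
      ∑ s, ∫ z : Conf (n + 1), ψ (z 0) ^ 2 * (‖u.amp s z‖ * ‖f s z‖) := by
    rw [Complex.re_sum]
    refine Finset.sum_le_sum fun s _ => ?_
    have iF : Integrable (fun z => conj (F.amp s z) * f s z) :=
      (F.amp_mem s).star.integrable_mul (hf s)
    have e1 : (∫ z, conj (F.amp s z) * f s z).re = ∫ z, (conj (F.amp s z) * f s z).re :=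
      (integral_re iF).symm
    rw [e1]
    have iP : Integrable (fun z => ‖u.amp s z‖ * ‖f s z‖) :=
      (u.amp_memLp s).norm.integrable_mul (hf s).norm
    refine integral_mono iF.re (iψ iP) fun z => ?_
    refine (Complex.re_le_norm _).trans (le_of_eq ?_)
    rw [norm_mul, RCLike.norm_conj]
    simp only [hF, toFam, hw, mulW_amp, norm_mul, Complex.norm_real, Real.norm_eq_abs]
    rw [← sq_abs (ψ (z 0))]
    ring
  -- tail energy
  have tail := w.energy_slices (pot lam) E' (fun _ => True) (fun χ _ => hE' χ)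
    (Eventually.of_forall fun _ _ _ _ => trivial) (w.int_pot_tail lam)
  have gsucc : ∀ s (i : Fin n) k, ∫ z, ‖w.grad s i.succ k z‖ ^ 2 =
      ∫ z, ψ (z 0) ^ 2 * ‖u.grad s i.succ k z‖ ^ 2 := by
    intro s i k
    refine integral_congr_ae (Eventually.of_forall fun z => ?_)
    simp only [hw, mulW_grad, Fin.succ_ne_zero, if_false, zero_add, norm_mul, Complex.norm_real,
      mul_pow, Real.norm_eq_abs, sq_abs]
  simp only [gsucc] at tail
  have potle : ∀ s, -(1 / r) * (∫ z, ‖w.amp s z‖ ^ 2) +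
      (∫ z : Conf (n + 1), pot lam (fun i => z i.succ : Conf n) * ‖w.amp s z‖ ^ 2) ≤
      ∫ z, pot lam z * ‖w.amp s z‖ ^ 2 := by
    intro s
    have iw : Integrable (fun z => ‖w.amp s z‖ ^ 2) :=
      (w.amp_memLp s).integrable_norm_pow (by norm_num)
    rw [← integral_const_mul, ← integral_add (iw.const_mul _) (w.int_pot_tail lam s)]
    refine integral_mono ((iw.const_mul _).add (w.int_pot_tail lam s)) (w.int_pot lam s)
      fun z => ?_
    simp only
    rw [pot_succ]
    have h1 : 0 ≤ (lam * ∑ j : Fin n, 1 / ‖z 0 - z j.succ‖) * ‖w.amp s z‖ ^ 2 := by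
      have : 0 ≤ ∑ j : Fin n, 1 / ‖z 0 - z j.succ‖ := Finset.sum_nonneg fun j _ => by positivity
      positivity
    have h2 : 1 / ‖z 0‖ * ‖w.amp s z‖ ^ 2 ≤ 1 / r * ‖w.amp s z‖ ^ 2 := by
      by_cases hz : ‖z 0‖ ≤ r
      · have : w.amp s z = 0 := by
          simp only [hw, mulW_amp, hsupp _ hz, Complex.ofReal_zero, zero_mul]
        rw [this]
        simp
      · have hz' : r ≤ ‖z 0‖ := (not_le.1 hz).le
        exact mul_le_mul_of_nonneg_right (one_div_le_one_div_of_le hr hz') (by positivity)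
    nlinarith
  -- the Laplacian term
  have lap1 : ∑ s, ∫ z : Conf (n + 1), lap (fun y => ψ y ^ 2) (z 0) * ‖u.amp s z‖ ^ 2 =
      -(2 * ∑ s, ∑ k, ∫ z : Conf (n + 1), V k (z 0) *
        (conj (u.amp s z) * u.grad s 0 k z).re) := by
    rw [Finset.mul_sum, ← Finset.sum_neg_distrib]
    refine Finset.sum_congr rfl fun s _ => ?_
    have iL : ∀ k, Integrable (fun z : Conf (n + 1) =>
        fderiv ℝ (V k) (z 0) (e3 k) * ‖u.amp s z‖ ^ 2) := fun k =>
      (iamp s).bdd_mul (c := wc (hV k))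
        ((((hV k).smooth.continuous_fderiv (by simp)).clm_apply continuous_const).comp
          (continuous_apply 0)).aestronglyMeasurable
        (Eventually.of_forall fun z => by
          rw [Real.norm_eq_abs]
          exact (abs_fderiv_le _ _ k).trans (wc_gbdd (hV k) _))
    have e1 : ∫ z : Conf (n + 1), lap (fun y => ψ y ^ 2) (z 0) * ‖u.amp s z‖ ^ 2 =
        ∑ k, ∫ z : Conf (n + 1), fderiv ℝ (V k) (z 0) (e3 k) * ‖u.amp s z‖ ^ 2 := by
      rw [← integral_finsetSum _ fun k _ => iL k]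
      refine integral_congr_ae (Eventually.of_forall fun z => ?_)
      simp only [lap, Finset.sum_mul]
      rfl
    rw [e1, Finset.mul_sum, ← Finset.sum_neg_distrib]
    refine Finset.sum_congr rfl fun k _ => ?_
    have := cross u s k (hV k)
    linarith
  -- assembly
  have kinsum : ∑ s, ∑ i, ∑ k, (∫ z, conj (F.grad s i k z) * (toFam u).grad s i k z).re =
      (∑ s, ∑ k, ∫ z : Conf (n + 1), ψ (z 0) ^ 2 * ‖u.grad s 0 k z‖ ^ 2) +
      (∑ s, ∑ i : Fin n, ∑ k, ∫ z : Conf (n + 1), ψ (z 0) ^ 2 * ‖u.grad s i.succ k z‖ ^ 2) +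
      ∑ s, ∑ k, ∫ z : Conf (n + 1), V k (z 0) * (conj (u.amp s z) * u.grad s 0 k z).re := by
    simp only [kin1]
    rw [← Finset.sum_add_distrib, ← Finset.sum_add_distrib]
    refine Finset.sum_congr rfl fun s _ => ?_
    rw [Fin.sum_univ_succ]
    simp only [if_true, Fin.succ_ne_zero, if_false, add_zero, Finset.sum_add_distrib]
    ring
  have k0 : 0 ≤ ∑ s, ∑ k, ∫ z : Conf (n + 1), ψ (z 0) ^ 2 * ‖u.grad s 0 k z‖ ^ 2 :=
    Finset.sum_nonneg fun s _ => Finset.sum_nonneg fun k _ => integral_nonneg fun z => by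
      positivity
  have potsum : -(1 / r) * w.nsq +
      ∑ s, ∫ z : Conf (n + 1), pot lam (fun i => z i.succ : Conf n) * ‖w.amp s z‖ ^ 2 ≤
      ∑ s, ∫ z, pot lam z * ‖w.amp s z‖ ^ 2 := by
    unfold PState.nsq
    rw [Finset.mul_sum, ← Finset.sum_add_distrib]
    exact Finset.sum_le_sum fun s _ => potle s
  rw [Complex.add_re, Complex.re_ofReal_mul, inn1, formre, kinsum] at hELr
  simp only [pot1] at hELr
  have tail' : E' * w.nsq ≤ (1 / 2) * (∑ s, ∑ i : Fin n, ∑ k,
      ∫ z : Conf (n + 1), ψ (z 0) ^ 2 * ‖u.grad s i.succ k z‖ ^ 2) +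
      ∑ s, ∫ z : Conf (n + 1), pot lam (fun i => z i.succ : Conf n) * ‖w.amp s z‖ ^ 2 := tail
  rw [lap1, ← hnsq]
  have hr' : 0 < 1 / r := by positivity
  nlinarith

/-! ### the two inequalities -/

theorem lap_sq_wt {ψ : R3 → ℝ} (h : Test ψ) :
    Continuous (lap fun y => ψ y ^ 2) ∧ ∃ C, ∀ x, |lap (fun y => ψ y ^ 2) x| ≤ C := by
  have hV : ∀ k, Wt (fun x => fderiv ℝ (fun y => ψ y ^ 2) x (e3 k)) := fun k => test_fderiv_wt h k
  refine ⟨?_, ∑ k, wc (hV k), fun x => ?_⟩
  · unfold lap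
    refine continuous_finsetSum _ fun k _ => ?_
    exact ((hV k).smooth.continuous_fderiv (by simp)).clm_apply continuous_const
  · unfold lap
    refine (Finset.abs_sum_le_sum_abs _ _).trans (Finset.sum_le_sum fun k _ => ?_)
    exact (abs_fderiv_le _ x k).trans (wc_gbdd (hV k) x)

/-- from the general inequality to the density -/
theorem sub_density {lam : ℝ} (hlam : 0 ≤ lam) (D : ElectronState 5) {E : ℝ} (hE : E ≤ 0)
    (f : Spn 5 → Conf 5 → ℂ) (hf : ∀ s, MemLp (f s) 2 volume)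
    (hEL : ∀ F : Fam 5, Fam.form (pot lam) F (fam D) =
      (E : ℂ) * Fam.inn F (fam D) + ∑ s, ∫ z, conj (F.amp s z) * f s z) (R : ℝ) :
    SubSol (1 / 2) R KK (density D) (hsrc D f) := by
  intro ψ hψ hz
  have hsupp : ∀ x, ‖x‖ ≤ 1 / 2 → ψ x = 0 := fun x hx => hz x fun h => absurd h.1 (not_lt.2 hx)
  have hE4 : ∀ χ : ElectronState 4, (-(5 / 4) : ℝ) * normSq χ ≤ energy (pot lam) χ := fun χ => by
    have h := energy_ge H518.hydro hlam χ
    have e : H518.E0 4 = -(5 / 4) := by unfold H518.E0; norm_num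
    rwa [e] at h
  have key := sub_gen hlam (PState.ofES D) E f hf hEL (-(5 / 4)) hE4 hψ
    (show (0 : ℝ) < 1 / 2 by norm_num) hsupp
  obtain ⟨hlc, C, hC⟩ := lap_sq_wt hψ
  have hW : Wt ψ := wt_of_test hψ
  have bψ : ∀ x, |ψ x ^ 2| ≤ wc hW ^ 2 := fun x => by
    rw [abs_of_nonneg (sq_nonneg _), ← sq_abs]
    exact pow_le_pow_left₀ (abs_nonneg _) (wc_bdd hW _) 2
  have c1 := potE_zero_eq D (lap fun y => ψ y ^ 2) (fun s => int_bdd_sq D s hlc hC)
  have c2 := potE_zero_eq D (fun x => ψ x ^ 2)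
    (fun s => int_bdd_sq D s (hψ.continuous.pow 2) bψ)
  have iDd : Integrable fun x => ψ x ^ 2 * density D x :=
    integrable_mul_density D _ (fun s => int_bdd_sq D s (hψ.continuous.pow 2) bψ)
  have iP : ∀ s, Integrable (fun z : Conf 5 => ‖D.amp s z‖ * ‖f s z‖) := fun s =>
    (amp_L2 D s).norm.integrable_mul (hf s).norm
  have iψP : ∀ s, Integrable (fun z : Conf 5 => ψ (z 0) ^ 2 * (‖D.amp s z‖ * ‖f s z‖)) :=
    fun s => (iP s).bdd_mul (c := wc hW ^ 2)
      ((hψ.continuous.comp (continuous_apply 0)).pow 2).aestronglyMeasurable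
      (Eventually.of_forall fun z => by rw [Real.norm_eq_abs]; exact bψ _)
  have c3 : ∫ x, ψ x ^ 2 * hsrc D f x =
      20 * ∑ s, ∫ z : Conf 5, ψ (z 0) ^ 2 * (‖D.amp s z‖ * ‖f s z‖) := by
    have e1 : ∀ x, ψ x ^ 2 * hsrc D f x = 20 * ∑ s, (ψ x ^ 2 *
        ∫ y : Conf 4, ‖D.amp s (Fin.cons x y)‖ * ‖f s (Fin.cons x y)‖) := by
      intro x
      unfold hsrc
      rw [← Finset.mul_sum]
      ring
    simp only [e1]
    rw [integral_const_mul, integral_finsetSum _ fun s _ =>
      integrable_unc_mul (fun x => ψ x ^ 2) (iψP s)]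
    congr 1
    exact Finset.sum_congr rfl fun s _ => (int_unc_mul (fun x => ψ x ^ 2) (iψP s)).symm
  have iH : Integrable fun x => ψ x ^ 2 * hsrc D f x := by
    have e1 : (fun x => ψ x ^ 2 * hsrc D f x) = fun x => 20 * ∑ s, (ψ x ^ 2 *
        ∫ y : Conf 4, ‖D.amp s (Fin.cons x y)‖ * ‖f s (Fin.cons x y)‖) := by
      funext x
      unfold hsrc
      rw [← Finset.mul_sum]
      ring
    rw [e1]
    exact (integrable_finsetSum _ fun s _ =>
      integrable_unc_mul (fun x => ψ x ^ 2) (iψP s)).const_mul _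
  have e0 : ∫ x, density D x * lap (fun y => ψ y ^ 2) x =
      ∫ x, lap (fun y => ψ y ^ 2) x * density D x := by
    refine integral_congr_ae (Eventually.of_forall fun x => ?_)
    simp only
    ring
  have e4 : ∫ x, ψ x ^ 2 * (KK * density D x + hsrc D f x) =
      KK * (∫ x, ψ x ^ 2 * density D x) + ∫ x, ψ x ^ 2 * hsrc D f x := by
    rw [← integral_const_mul, ← integral_add (iDd.const_mul _) iH]
    refine integral_congr_ae (Eventually.of_forall fun x => ?_)
    simp only
    ring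
  rw [e0, e4, c3, ← c1, ← c2]
  have w0 : 0 ≤ wnsq ψ (PState.ofES D) := by
    unfold wnsq
    positivity
  have k1 : potE (fun x : Conf 5 => lap (fun y => ψ y ^ 2) (x 0)) D =
      ∑ s, ∫ z : Conf (4 + 1), lap (fun y => ψ y ^ 2) (z 0) * ‖(PState.ofES D).amp s z‖ ^ 2 := rfl
  have k2 : potE (fun x : Conf 5 => ψ (x 0) ^ 2) D = wnsq ψ (PState.ofES D) := rfl
  have k3 : ∑ s, ∫ z : Conf (4 + 1), ψ (z 0) ^ 2 * (‖(PState.ofES D).amp s z‖ * ‖f s z‖) =
      ∑ s, ∫ z : Conf 5, ψ (z 0) ^ 2 * (‖D.amp s z‖ * ‖f s z‖) := rfl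
  rw [k1, k2]
  rw [k3] at key
  have h5 : 4 * (E - -(5 / 4) + 1 / (1 / 2)) * wnsq ψ (PState.ofES D) ≤
      KK * wnsq ψ (PState.ofES D) := by
    refine mul_le_mul_of_nonneg_right ?_ w0
    unfold KK
    norm_num
    linarith
  push_cast
  nlinarith

/-- Part I-A. -/
theorem sub_hom {lam : ℝ} (hlam : 0 ≤ lam) {Ψ : ElectronState 5} (h : IsGroundState (pot lam) Ψ)
    (hE : energy (pot lam) Ψ ≤ 0) (R : ℝ) : SubSol (1 / 2) R KK (density Ψ) (fun _ => 0) := by
  have key := sub_density hlam Ψ hE (fun _ _ => 0) (fun _ => MemLp.zero) (fun F => by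
    rw [el_pot h F]
    simp) R
  intro ψ hψ hz
  have := key ψ hψ hz
  have e : ∀ x, hsrc Ψ (fun _ _ => 0) x = 0 := fun x => by simp [hsrc]
  simpa only [e] using this

theorem form_pot_lam (lam : ℝ) (F G : Fam 5) :
    Fam.form (pot lam) F G = Fam.form (pot 0) F G + (lam : ℂ) * Fam.pot rep F G := by
  unfold Fam.form
  rw [add_assoc]
  congr 1
  unfold Fam.pot
  rw [Finset.mul_sum, ← Finset.sum_add_distrib]
  refine Finset.sum_congr rfl fun s _ => ?_
  rw [← integral_const_mul, ← integral_add (Fam.int_pot (adm_pot 0) F G s)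
    ((Fam.int_pot adm_rep F G s).const_mul _)]
  refine integral_congr_ae (Eventually.of_forall fun z => ?_)
  simp only [pot]
  push_cast
  ring

theorem memLp_src (lam a : ℝ) (Ψ0 : ElectronState 5) (s : Spn 5) :
    MemLp (src lam a Ψ0 s) 2 volume := by
  have h1 := (amp_L2 Ψ0 s).const_mul (a : ℂ)
  have h2 := (memLp_rep_mul (amp_L2 Ψ0 s) (grad_L2 Ψ0 s) (grad_WD Ψ0 s)).const_mul (lam : ℂ)
  have h3 := h1.sub h2
  have e : src lam a Ψ0 s =
      (fun x => (a : ℂ) * Ψ0.amp s x) - fun x => (lam : ℂ) * ((rep x : ℂ) * Ψ0.amp s x) := by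
    funext x
    simp only [src, Pi.sub_apply]
    push_cast
    ring
  rw [e]
  exact h3

/-- Part I-B. -/
theorem sub_dif {lam : ℝ} (hlam : 0 ≤ lam) {Ψ Ψ0 : ElectronState 5} (h : IsGroundState (pot lam) Ψ)
    (h0 : IsGroundState (pot 0) Ψ0) (hE : energy (pot lam) Ψ ≤ 0) (R : ℝ) :
    SubSol (1 / 2) R KK (density (dif Ψ Ψ0))
      (hsrc (dif Ψ Ψ0) (src lam (energy (pot lam) Ψ - energy (pot 0) Ψ0) Ψ0)) := by
  refine sub_density hlam (dif Ψ Ψ0) hE _ (memLp_src _ _ _) (fun F => ?_) R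
  have e1 : fam (dif Ψ Ψ0) = (fam Ψ).add ((fam Ψ0).smul (-1)) := rfl
  rw [e1, Fam.form_add_right (adm_pot lam), Fam.form_smul_right, Fam.inn_add_right,
    Fam.inn_smul_right, el_pot h F, form_pot_lam lam F (fam Ψ0), el_pot h0 F]
  set E := energy (pot lam) Ψ
  set E0 := energy (pot 0) Ψ0
  have e2 : ∑ s, ∫ z, conj (F.amp s z) * src lam (E - E0) Ψ0 s z =
      ((E - E0 : ℝ) : ℂ) * Fam.inn F (fam Ψ0) - (lam : ℂ) * Fam.pot rep F (fam Ψ0) := by
    unfold Fam.inn Fam.pot
    rw [Finset.mul_sum, Finset.mul_sum, ← Finset.sum_sub_distrib]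
    refine Finset.sum_congr rfl fun s _ => ?_
    rw [← integral_const_mul, ← integral_const_mul, ← integral_sub
      ((Fam.int_amp F (fam Ψ0) s).const_mul _) ((Fam.int_pot adm_rep F (fam Ψ0) s).const_mul _)]
    refine integral_congr_ae (Eventually.of_forall fun z => ?_)
    simp only [src, fam_amp]
    push_cast
    ring
  rw [e2]
  push_cast
  ring

end

end Vale.Agent.P363.R.B5
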