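import Vale.Agent.P363.R.B5.h924.ShellDefs

/-! Block B5.7: slice-wise Cauchy-Schwarz and triangle inequalities for densities. -/

namespace Vale.Agent.P363.R.B5

open MeasureTheory Filter Topology
open Vale.Agent.P363.Stmt
open Vale.Agent.P363.H382
open Vale.Agent.P363.H943
open Vale.Agent.P363.R801
open Vale.Agent.P363.R.Sob
open Vale.Agent.P363.R.Top
open scoped ContDiff ENNReal ComplexConjugate

noncomputable section

section abs

variable {ι X : Type*} [Fintype ι] [MeasurableSpace X] {μ : Measure X}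

/-- squared `L²` norm of a finite family -/
def QQ (μ : Measure X) (f : ι → X → ℂ) : ℝ := ∑ s, ∫ x, ‖f s x‖ ^ 2 ∂μ

theorem QQ_nonneg (f : ι → X → ℂ) : 0 ≤ QQ μ f :=
  Finset.sum_nonneg fun _ _ => integral_nonneg fun _ => by positivity

theorem cs_family {f g : ι → X → ℂ} (hf : ∀ s, MemLp (f s) 2 μ) (hg : ∀ s, MemLp (g s) 2 μ) :
    ∑ s, ∫ x, ‖f s x‖ * ‖g s x‖ ∂μ ≤ Real.sqrt (QQ μ f) * Real.sqrt (QQ μ g) := by
  have one : ∀ s, ∫ x, ‖f s x‖ * ‖g s x‖ ∂μ ≤
      Real.sqrt (∫ x, ‖f s x‖ ^ 2 ∂μ) * Real.sqrt (∫ x, ‖g s x‖ ^ 2 ∂μ) := by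
    intro s
    have h2 := integral_mul_le_Lp_mul_Lq_of_nonneg (μ := μ) (p := 2) (q := 2)
      (f := fun x => ‖f s x‖) (g := fun x => ‖g s x‖) Real.HolderConjugate.two_two
      (Eventually.of_forall fun x => norm_nonneg _) (Eventually.of_forall fun x => norm_nonneg _)
      (by simpa using (hf s).norm) (by simpa using (hg s).norm)
    simpa only [Real.rpow_two, Real.sqrt_eq_rpow] using h2
  refine (Finset.sum_le_sum fun s _ => one s).trans ?_
  refine Real.le_sqrt_of_sq_le ?_ |>.trans (le_of_eq (Real.sqrt_mul (QQ_nonneg f) _))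
  refine (Finset.sum_mul_sq_le_sq_mul_sq _ _ _).trans (le_of_eq ?_)
  unfold QQ
  congr 1
  · exact Finset.sum_congr rfl fun s _ => Real.sq_sqrt (integral_nonneg fun x => by positivity)
  · exact Finset.sum_congr rfl fun s _ => Real.sq_sqrt (integral_nonneg fun x => by positivity)

theorem sqrt_QQ_le {f g : ι → X → ℂ} (hf : ∀ s, MemLp (f s) 2 μ) (hg : ∀ s, MemLp (g s) 2 μ) :
    Real.sqrt (QQ μ f) ≤ Real.sqrt (QQ μ g) + Real.sqrt (QQ μ fun s x => f s x - g s x) := by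
  set h : ι → X → ℂ := fun s x => f s x - g s x with hh
  have hm : ∀ s, MemLp (h s) 2 μ := fun s => (hf s).sub (hg s)
  refine Real.sqrt_le_iff.2 ⟨by positivity, ?_⟩
  have h1 : QQ μ f ≤ QQ μ g + 2 * (∑ s, ∫ x, ‖g s x‖ * ‖h s x‖ ∂μ) + QQ μ h := by
    unfold QQ
    rw [Finset.mul_sum, ← Finset.sum_add_distrib, ← Finset.sum_add_distrib]
    refine Finset.sum_le_sum fun s _ => ?_
    have i1 : Integrable (fun x => ‖g s x‖ ^ 2) μ := (hg s).integrable_norm_pow (by norm_num)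
    have i2 : Integrable (fun x => ‖h s x‖ ^ 2) μ := (hm s).integrable_norm_pow (by norm_num)
    have i3 : Integrable (fun x => ‖g s x‖ * ‖h s x‖) μ := (hg s).norm.integrable_mul (hm s).norm
    have i4 : Integrable (fun x => ‖g s x‖ ^ 2 + 2 * (‖g s x‖ * ‖h s x‖)) μ :=
      i1.add (i3.const_mul 2)
    rw [← integral_const_mul, ← integral_add i1 (i3.const_mul 2), ← integral_add i4 i2]
    refine integral_mono ((hf s).integrable_norm_pow (by norm_num)) (i4.add i2) fun x => ?_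
    simp only
    have h2 : ‖f s x‖ ≤ ‖g s x‖ + ‖h s x‖ := by
      have := norm_add_le (g s x) (h s x)
      simpa [hh] using this
    have h3 := pow_le_pow_left₀ (norm_nonneg _) h2 2
    nlinarith
  have h2 := cs_family hg hm
  have e1 := Real.sq_sqrt (QQ_nonneg (μ := μ) g)
  have e2 := Real.sq_sqrt (QQ_nonneg (μ := μ) h)
  calc QQ μ f ≤ QQ μ g + 2 * (Real.sqrt (QQ μ g) * Real.sqrt (QQ μ h)) + QQ μ h := by linarith
    _ = (Real.sqrt (QQ μ g) + Real.sqrt (QQ μ h)) ^ 2 := by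
        rw [add_sq, e1, e2]
        ring

theorem abs_sqrt_QQ_sub_le {f g : ι → X → ℂ} (hf : ∀ s, MemLp (f s) 2 μ)
    (hg : ∀ s, MemLp (g s) 2 μ) :
    |Real.sqrt (QQ μ f) - Real.sqrt (QQ μ g)| ≤
      Real.sqrt (QQ μ fun s x => f s x - g s x) := by
  have h1 := sqrt_QQ_le hf hg
  have h2 := sqrt_QQ_le hg hf
  have e : QQ μ (fun s x => g s x - f s x) = QQ μ (fun s x => f s x - g s x) := by
    unfold QQ
    refine Finset.sum_congr rfl fun s _ => integral_congr_ae (Eventually.of_forall fun x => ?_)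
    simp only
    rw [norm_sub_rev]
  rw [e] at h2
  rw [abs_le]
  constructor <;> linarith

end abs

/-- slices of an electron state -/
def slc (Ψ : ElectronState 5) (x : R3) : Spn 5 → Conf 4 → ℂ := fun s y => Ψ.amp s (Fin.cons x y)

theorem density_QQ (Ψ : ElectronState 5) (x : R3) : density Ψ x = 5 * QQ volume (slc Ψ x) := by
  rw [density_eq]
  unfold QQ slc
  norm_num

theorem ae_slc (Ψ : ElectronState 5) : ∀ᵐ x : R3, ∀ s, MemLp (slc Ψ x s) 2 volume := by
  rw [ae_all_iff]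
  intro s
  exact memLp_slice (memLp_consE (Ψ.amp_memLp s))

/-- (a) -/
theorem sqrt_density_sub (Ψ Ψ0 : ElectronState 5) : ∀ᵐ x : R3,
    |Real.sqrt (density Ψ x) - Real.sqrt (density Ψ0 x)| ≤
      Real.sqrt (density (dif Ψ Ψ0) x) := by
  filter_upwards [ae_slc Ψ, ae_slc Ψ0] with x h h0
  have h1 := abs_sqrt_QQ_sub_le h h0
  have e : QQ volume (slc (dif Ψ Ψ0) x) =
      QQ volume (fun s y => slc Ψ x s y - slc Ψ0 x s y) := by
    unfold QQ slc
    simp only [dif_amp]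
  rw [density_QQ, density_QQ, density_QQ, e, Real.sqrt_mul (by norm_num),
    Real.sqrt_mul (by norm_num), Real.sqrt_mul (by norm_num), ← mul_sub, abs_mul,
    abs_of_nonneg (Real.sqrt_nonneg 5)]
  exact mul_le_mul_of_nonneg_left h1 (Real.sqrt_nonneg 5)

/-- (b) -/
theorem integral_density_dif (Ψ Ψ0 : ElectronState 5) :
    ∫ x, density (dif Ψ Ψ0) x = 5 * distSq Ψ Ψ0 := by
  rw [H382.integral_density, normSq_eq]
  unfold distSq
  simp only [dif_amp]
  norm_num

/-- (d) -/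
theorem density_dif_le (Ψ Ψ0 : ElectronState 5) : ∀ᵐ x : R3,
    density (dif Ψ Ψ0) x ≤ 2 * (density Ψ x + density Ψ0 x) := by
  filter_upwards [ae_slc Ψ, ae_slc Ψ0] with x h h0
  rw [density_QQ, density_QQ, density_QQ]
  have h1 : QQ volume (slc (dif Ψ Ψ0) x) ≤ 2 * QQ volume (slc Ψ x) + 2 * QQ volume (slc Ψ0 x) := by
    unfold QQ
    rw [Finset.mul_sum, Finset.mul_sum, ← Finset.sum_add_distrib]
    refine Finset.sum_le_sum fun s _ => ?_
    have i1 : Integrable (fun y => ‖slc Ψ x s y‖ ^ 2) := (h s).integrable_norm_pow (by norm_num)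
    have i2 : Integrable (fun y => ‖slc Ψ0 x s y‖ ^ 2) := (h0 s).integrable_norm_pow (by norm_num)
    have i3 : Integrable (fun y => ‖slc (dif Ψ Ψ0) x s y‖ ^ 2) := by
      have : (fun y => ‖slc (dif Ψ Ψ0) x s y‖ ^ 2) =
          fun y => ‖(slc Ψ x s - slc Ψ0 x s) y‖ ^ 2 := by
        funext y
        simp [slc, dif_amp]
      rw [this]
      exact ((h s).sub (h0 s)).integrable_norm_pow (by norm_num)
    rw [← integral_const_mul, ← integral_const_mul,
      ← integral_add (i1.const_mul 2) (i2.const_mul 2)]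
    refine integral_mono i3 ((i1.const_mul 2).add (i2.const_mul 2)) fun y => ?_
    simp only [slc, dif_amp]
    have h2 := norm_sub_le (Ψ.amp s (Fin.cons x y)) (Ψ0.amp s (Fin.cons x y))
    have h3 := pow_le_pow_left₀ (norm_nonneg _) h2 2
    nlinarith [sq_nonneg (‖Ψ.amp s (Fin.cons x y)‖ - ‖Ψ0.amp s (Fin.cons x y)‖)]
  linarith

/-- (c) -/
theorem hsrc_sq_le (D : ElectronState 5) {f : Spn 5 → Conf 5 → ℂ}
    (hf : ∀ s, MemLp (f s) 2 volume) : ∀ᵐ x : R3,
    hsrc D f x ^ 2 ≤ 80 * density D x * ∑ s, ∫ y : Conf 4, ‖f s (Fin.cons x y)‖ ^ 2 := by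
  have hf' : ∀ᵐ x : R3, ∀ s, MemLp (fun y : Conf 4 => f s (Fin.cons x y)) 2 volume := by
    rw [ae_all_iff]
    intro s
    exact memLp_slice (memLp_consE (hf s))
  filter_upwards [ae_slc D, hf'] with x h h0
  have h1 := cs_family h h0
  have h2 : 0 ≤ ∑ s, ∫ y : Conf 4, ‖slc D x s y‖ * ‖f s (Fin.cons x y)‖ :=
    Finset.sum_nonneg fun s _ => integral_nonneg fun y => by positivity
  have h3 := pow_le_pow_left₀ h2 h1 2
  rw [mul_pow, Real.sq_sqrt (QQ_nonneg _), Real.sq_sqrt (QQ_nonneg _)] at h3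
  rw [density_QQ]
  unfold hsrc
  have e : (20 * ∑ s, ∫ y : Conf 4, ‖D.amp s (Fin.cons x y)‖ * ‖f s (Fin.cons x y)‖) ^ 2 =
      400 * (∑ s, ∫ y : Conf 4, ‖slc D x s y‖ * ‖f s (Fin.cons x y)‖) ^ 2 := by
    unfold slc
    ring
  rw [e]
  have e2 : QQ volume (fun s (y : Conf 4) => f s (Fin.cons x y)) =
      ∑ s, ∫ y : Conf 4, ‖f s (Fin.cons x y)‖ ^ 2 := rfl
  rw [← e2]
  nlinarith

end

end Vale.Agent.P363.R.B5
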