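import Vale.Agent.P363.R.B5.h924.Shell1
import Vale.Agent.P363.R.B5.h924.Shell2
import Vale.Agent.P363.H849.PotBound

/-! Block B5.7, part II: `b5_shell`. -/

namespace Vale.Agent.P363.R.B5

open MeasureTheory Filter Topology
open Vale.Agent.P363.Stmt
open Vale.Agent.P363.H382
open Vale.Agent.P363.H943
open Vale.Agent.P363.R801
open Vale.Agent.P363.R.Sob
open Vale.Agent.P363.R.Top
open scoped ContDiff ENNReal ComplexConjugate

noncomputable section

theorem SubSol.mono {r R r' R' K : ℝ} {n h : R3 → ℝ} (hs : SubSol r R K n h) (hr : r ≤ r')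
    (hR : R' ≤ R) : SubSol r' R' K n h := by
  intro ψ hψ hz
  refine hs ψ hψ fun x hx => hz x fun hx' => hx ⟨lt_of_le_of_lt hr hx'.1, lt_of_lt_of_le hx'.2 hR⟩

/-- uniform bound of the density on a shell. -/
theorem dens_bound : ∃ C₁ : ℝ, 0 ≤ C₁ ∧ ∀ lam, 0 ≤ lam → ∀ Ψ : ElectronState 5,
    IsGroundState (pot lam) Ψ → energy (pot lam) Ψ ≤ 0 →
      ∀ᵐ x, x ∈ sh (7 / 10) 22 → density Ψ x ≤ C₁ := by
  obtain ⟨Ca, hCa⟩ := H849.loc_L2 (r₁ := 1 / 2) (r₂ := 6 / 10) (R₂ := 23) (R₁ := 24) (by norm_num)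
    (by norm_num) (by norm_num) KK
  obtain ⟨Cb, hCb⟩ := H849.loc_sup (r₁ := 6 / 10) (r₂ := 7 / 10) (R₂ := 22) (R₁ := 23) (by norm_num)
    (by norm_num) (by norm_num) KK
  refine ⟨Real.sqrt (max Cb 0 * (max Ca 0 * 25)), Real.sqrt_nonneg _, fun lam hl Ψ hg hE => ?_⟩
  have hs := sub_hom hl hg hE 24
  have hn : ∀ᵐ x, 0 ≤ density Ψ x := Eventually.of_forall fun x => density_nonneg Ψ x
  have h0 : ∀ᵐ x : R3, (0 : ℝ) ≤ (fun _ : R3 => (0 : ℝ)) x := Eventually.of_forall fun x => le_rfl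
  have hi := integrable_density Ψ
  have h1 := hCa (density Ψ) (fun _ => 0) hn h0 hi (integrable_zero _ _ _) hs
  have h2 := hCb (density Ψ) (fun _ => 0) hn h0 hi (integrable_zero _ _ _)
    (hs.mono (by norm_num) (by norm_num))
  simp only [add_zero] at h1 h2
  have h3 : ∫⁻ x in sh (1 / 2) 24, ENNReal.ofReal (density Ψ x) ≤ ENNReal.ofReal 5 := by
    refine (setLIntegral_le_lintegral _ _).trans ?_
    rw [← ofReal_integral_eq_lintegral_ofReal hi hn, H382.integral_density, hg.1]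
    norm_num
  have h4 : ∫⁻ x in sh (6 / 10) 23, ENNReal.ofReal (density Ψ x ^ 2) ≤
      ENNReal.ofReal (max Ca 0 * 25) := by
    refine h1.trans ?_
    rw [ENNReal.ofReal_mul (le_max_right _ _)]
    refine mul_le_mul' (ENNReal.ofReal_le_ofReal (le_max_left _ _)) ?_
    calc (∫⁻ x in sh (1 / 2) 24, ENNReal.ofReal (density Ψ x)) ^ 2 ≤ (ENNReal.ofReal 5) ^ 2 := by
          gcongr
      _ = ENNReal.ofReal 25 := by
          rw [← ENNReal.ofReal_pow (by norm_num)]
          norm_num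
  filter_upwards [h2] with x hx hxs
  have h5 := hx hxs
  have h6 : ENNReal.ofReal (density Ψ x ^ 2) ≤
      ENNReal.ofReal (max Cb 0 * (max Ca 0 * 25)) := by
    refine h5.trans ?_
    rw [ENNReal.ofReal_mul (le_max_right _ _)]
    exact mul_le_mul' (ENNReal.ofReal_le_ofReal (le_max_left _ _)) h4
  have h7 : 0 ≤ max Cb 0 * (max Ca 0 * 25) := by positivity
  exact Real.le_sqrt_of_sq_le ((ENNReal.ofReal_le_ofReal_iff h7).1 h6)

/-- total mass of the source -/
theorem src_mass (Ψ0 : ElectronState 5) (h0 : normSq Ψ0 = 1) : ∃ B : ℝ, 0 ≤ B ∧ ∀ lam a : ℝ,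
    ∑ s, ∫ z, ‖src lam a Ψ0 s z‖ ^ 2 ≤ 2 * a ^ 2 + 2 * lam ^ 2 * B := by
  refine ⟨∑ s, ∫ z, ‖((rep z : ℝ) : ℂ) * Ψ0.amp s z‖ ^ 2, by positivity, fun lam a => ?_⟩
  have e : 2 * a ^ 2 = 2 * a ^ 2 * ∑ s, ∫ z, ‖Ψ0.amp s z‖ ^ 2 := by
    rw [← normSq_eq, h0, mul_one]
  rw [e, Finset.mul_sum, Finset.mul_sum, ← Finset.sum_add_distrib]
  refine Finset.sum_le_sum fun s _ => ?_
  have i1 := integrable_normSq Ψ0 s
  have i2 : Integrable fun z => ‖((rep z : ℝ) : ℂ) * Ψ0.amp s z‖ ^ 2 :=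
    (memLp_rep_mul (amp_L2 Ψ0 s) (grad_L2 Ψ0 s) (grad_WD Ψ0 s)).integrable_norm_pow (by norm_num)
  rw [← integral_const_mul, ← integral_const_mul,
    ← integral_add (i1.const_mul _) (i2.const_mul _)]
  refine integral_mono ((memLp_src lam a Ψ0 s).integrable_norm_pow (by norm_num))
    ((i1.const_mul _).add (i2.const_mul _)) fun z => ?_
  simp only [src, norm_mul, Complex.norm_real, mul_pow, Real.norm_eq_abs, sq_abs]
  have : (a - lam * rep z) ^ 2 ≤ 2 * a ^ 2 + 2 * lam ^ 2 * rep z ^ 2 := by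
    nlinarith [sq_nonneg (a + lam * rep z)]
  nlinarith [sq_nonneg (‖Ψ0.amp s z‖)]

theorem integrable_hsrc (D : ElectronState 5) {f : Spn 5 → Conf 5 → ℂ}
    (hf : ∀ s, MemLp (f s) 2 volume) : Integrable (hsrc D f) := by
  unfold hsrc
  refine (integrable_finsetSum _ fun s _ => ?_).const_mul _
  exact (H943.integrable_slice ((amp_L2 D s).norm.integrable_mul (hf s).norm)).1

theorem hsrc_nonneg (D : ElectronState 5) (f : Spn 5 → Conf 5 → ℂ) (x : R3) : 0 ≤ hsrc D f x := by
  unfold hsrc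
  positivity

/-- **B5.7.** -/
theorem b5_shell (Ψ0 : ElectronState 5) (h0 : IsGroundState (pot 0) Ψ0)
    (hE0 : energy (pot 0) Ψ0 = -11 / 8) : ∀ ε > 0, ∃ δ > 0, ∀ lam, 0 < lam → lam < δ →
    ∀ Ψ : ElectronState 5, IsGroundState (pot lam) Ψ → |energy (pot lam) Ψ + 11 / 8| ≤ δ →
      distSq Ψ Ψ0 ≤ δ →
      ∀ᵐ x, 1 ≤ ‖x‖ → ‖x‖ ≤ 20 →
        |Real.sqrt (density Ψ x) - Real.sqrt (density Ψ0 x)| ≤ ε := by
  intro ε hε
  obtain ⟨C₁, hC₁, H1⟩ := dens_bound
  obtain ⟨B, hB, H2⟩ := src_mass Ψ0 h0.1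
  obtain ⟨Cc, hCc⟩ := H849.loc_sup (r₁ := 7 / 10) (r₂ := 9 / 10) (R₂ := 21) (R₁ := 22) (by norm_num)
    (by norm_num) (by norm_num) KK
  set A : ℝ := max Cc 0 * (C₁ * (40 + 1280 + 1280 * B)) with hA
  have hA0 : 0 ≤ A := by positivity
  refine ⟨min 1 (ε ^ 4 / (A + 1)), by positivity, fun lam hl hlδ Ψ hg hE hd => ?_⟩
  set δ : ℝ := min 1 (ε ^ 4 / (A + 1)) with hδ
  have hδ0 : 0 < δ := by positivity
  have hδ1 : δ ≤ 1 := min_le_left _ _
  have hAδ : A * δ ≤ ε ^ 4 := by
    have h1 : δ ≤ ε ^ 4 / (A + 1) := min_le_right _ _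
    rw [le_div_iff₀ (by positivity)] at h1
    nlinarith
  have hE' := abs_le.1 hE
  have hEneg : energy (pot lam) Ψ ≤ 0 := by linarith [hE'.2]
  have hE0neg : energy (pot 0) Ψ0 ≤ 0 := by rw [hE0]; norm_num
  set D := dif Ψ Ψ0 with hD
  set a : ℝ := energy (pot lam) Ψ - energy (pot 0) Ψ0 with ha
  have ha2 : a ^ 2 ≤ δ ^ 2 := by
    have : a = energy (pot lam) Ψ + 11 / 8 := by rw [ha, hE0]; ring
    rw [this, ← sq_abs]
    exact pow_le_pow_left₀ (abs_nonneg _) hE 2
  have hlam2 : lam ^ 2 ≤ δ ^ 2 := pow_le_pow_left₀ hl.le hlδ.le 2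
  set f := src lam a Ψ0 with hf
  have hfm : ∀ s, MemLp (f s) 2 volume := memLp_src lam a Ψ0
  set S : R3 → ℝ := fun x => ∑ s, ∫ y : Conf 4, ‖f s (Fin.cons x y)‖ ^ 2 with hS
  have iS : Integrable S := integrable_finsetSum _ fun s _ =>
    (H943.integrable_slice ((hfm s).integrable_norm_pow (by norm_num))).1
  have S0 : ∀ x, 0 ≤ S x := fun x => by simp only [hS]; positivity
  have mS : ∫ x, S x ≤ 2 * δ ^ 2 + 2 * δ ^ 2 * B := by
    have e : ∫ x, S x = ∑ s, ∫ z, ‖f s z‖ ^ 2 := by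
      simp only [hS]
      rw [integral_finsetSum _ fun s _ =>
        (H943.integrable_slice ((hfm s).integrable_norm_pow (by norm_num))).1]
      exact Finset.sum_congr rfl fun s _ =>
        (H943.integrable_slice ((hfm s).integrable_norm_pow (by norm_num))).2
    rw [e]
    refine (H2 lam a).trans ?_
    gcongr
  have hsub := (sub_dif hl.le hg h0 hEneg 22).mono (r' := 7 / 10) (R' := 22) (by norm_num) le_rfl
  have hfin := hCc (density D) (hsrc D f) (Eventually.of_forall fun x => density_nonneg D x)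
    (Eventually.of_forall fun x => hsrc_nonneg D f x) (integrable_density D)
    (integrable_hsrc D hfm) hsub
  -- bound of the right side
  have hbd : ∫⁻ x in sh (7 / 10) 22, ENNReal.ofReal ((density D x + hsrc D f x) ^ 2) ≤
      ENNReal.ofReal (C₁ * (40 + 1280 + 1280 * B) * δ) := by
    have hpt : ∀ᵐ x, x ∈ sh (7 / 10) 22 → (density D x + hsrc D f x) ^ 2 ≤
        8 * C₁ * density D x + 640 * C₁ * S x := by
      filter_upwards [H1 lam hl.le Ψ hg hEneg, H1 0 le_rfl Ψ0 h0 hE0neg, density_dif_le Ψ Ψ0,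
        hsrc_sq_le D hfm] with x h1 h2 h3 h4 hx
      have h5 : density D x ≤ 4 * C₁ := by
        have := h1 hx
        have := h2 hx
        linarith
      have h6 := density_nonneg D x
      have h7 : density D x ^ 2 ≤ 4 * C₁ * density D x := by nlinarith
      have h8 : hsrc D f x ^ 2 ≤ 320 * C₁ * S x := by
        refine h4.trans ?_
        have h9 := S0 x
        calc 80 * density D x * S x ≤ 80 * (4 * C₁) * S x := by gcongr
          _ = _ := by ring
      nlinarith [sq_nonneg (density D x - hsrc D f x)]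
    have i1 : Integrable fun x => 8 * C₁ * density D x + 640 * C₁ * S x :=
      ((integrable_density D).const_mul _).add (iS.const_mul _)
    calc ∫⁻ x in sh (7 / 10) 22, ENNReal.ofReal ((density D x + hsrc D f x) ^ 2)
        ≤ ∫⁻ x in sh (7 / 10) 22, ENNReal.ofReal (8 * C₁ * density D x + 640 * C₁ * S x) := by
          have hms : MeasurableSet (sh (7 / 10) 22) :=
            (measurableSet_lt measurable_const measurable_norm).inter
              (measurableSet_lt measurable_norm measurable_const)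
          refine lintegral_mono_ae ((ae_restrict_iff' hms).2 ?_)
          filter_upwards [hpt] with x hx hxs
          exact ENNReal.ofReal_le_ofReal (hx hxs)
      _ ≤ ∫⁻ x, ENNReal.ofReal (8 * C₁ * density D x + 640 * C₁ * S x) :=
          setLIntegral_le_lintegral _ _
      _ = ENNReal.ofReal (∫ x, (8 * C₁ * density D x + 640 * C₁ * S x)) := by
          rw [ofReal_integral_eq_lintegral_ofReal i1]
          refine Eventually.of_forall fun x => ?_
          have := density_nonneg D x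
          have := S0 x
          simp only [Pi.zero_apply]
          positivity
      _ ≤ _ := by
          refine ENNReal.ofReal_le_ofReal ?_
          rw [integral_add ((integrable_density D).const_mul _) (iS.const_mul _),
            integral_const_mul, integral_const_mul, integral_density_dif]
          have h1 : δ ^ 2 ≤ δ := by nlinarith
          have h2 : ∫ x, S x ≤ (2 + 2 * B) * δ := by
            refine mS.trans ?_
            nlinarith
          calc 8 * C₁ * (5 * distSq Ψ Ψ0) + 640 * C₁ * ∫ x, S x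
              ≤ 8 * C₁ * (5 * δ) + 640 * C₁ * ((2 + 2 * B) * δ) := by gcongr
            _ = C₁ * (40 + 1280 + 1280 * B) * δ := by ring
  filter_upwards [hfin, sqrt_density_sub Ψ Ψ0] with x hx hx2 h1 h20
  refine hx2.trans ?_
  have hxs : x ∈ sh (9 / 10) 21 := ⟨by linarith, by linarith⟩
  have h3 : ENNReal.ofReal (density D x ^ 2) ≤ ENNReal.ofReal (ε ^ 4) := by
    refine (hx hxs).trans ?_
    refine le_trans (mul_le_mul' (ENNReal.ofReal_le_ofReal (le_max_left Cc 0)) hbd) ?_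
    rw [← ENNReal.ofReal_mul (le_max_right _ _)]
    refine ENNReal.ofReal_le_ofReal (le_trans (le_of_eq ?_) hAδ)
    rw [hA]
    ring
  have h4 : density D x ^ 2 ≤ ε ^ 4 := (ENNReal.ofReal_le_ofReal_iff (by positivity)).1 h3
  have h5 : density D x ≤ ε ^ 2 := by
    have h6 : density D x ^ 2 ≤ (ε ^ 2) ^ 2 := by
      calc density D x ^ 2 ≤ ε ^ 4 := h4
        _ = _ := by ring
    exact (abs_le_of_sq_le_sq' h6 (by positivity)).2
  rw [← Real.sqrt_sq hε.le]
  exact Real.sqrt_le_sqrt h5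

end

end Vale.Agent.P363.R.B5
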