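import Vale.Agent.P363.R.B5.h924.IMS
import Vale.Agent.P363.H849.PotDefs
import Vale.Agent.P363.R2.h518.HydroInst

/-! Block B5.7: definitions. -/

namespace Vale.Agent.P363.R.B5

open MeasureTheory Filter Topology
open Vale.Agent.P363.Stmt
open Vale.Agent.P363.H382
open Vale.Agent.P363.H943
open Vale.Agent.P363.R801
open Vale.Agent.P363.R.Sob
open Vale.Agent.P363.R.Top
open scoped ContDiff ENNReal ComplexConjugate

noncomputable section

/-- the difference of two states -/
def dif {N : ℕ} (Ψ Ψ0 : ElectronState N) : ElectronState N :=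
  toState ((fam Ψ).add ((fam Ψ0).smul (-1))) ((anti_fam Ψ).add ((anti_fam Ψ0).smul (-1)))

theorem dif_amp {N : ℕ} (Ψ Ψ0 : ElectronState N) (s : Spn N) (x : Conf N) :
    (dif Ψ Ψ0).amp s x = Ψ.amp s x - Ψ0.amp s x := by
  simp [dif, toState, Fam.add, Fam.smul]
  ring

/-- the source term `(a - lam W) Ψ₀`, `a = E - E₀`, of the equation of the difference -/
def src (lam a : ℝ) (Ψ0 : ElectronState 5) (s : Spn 5) (x : Conf 5) : ℂ :=
  ((a - lam * rep x : ℝ) : ℂ) * Ψ0.amp s x

/-- the source in the inequality for the density of the difference -/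
def hsrc (D : ElectronState 5) (f : Spn 5 → Conf 5 → ℂ) (x : R3) : ℝ :=
  20 * ∑ s, ∫ y : Conf 4, ‖D.amp s (Fin.cons x y)‖ * ‖f s (Fin.cons x y)‖

/-- the constant of the differential inequality -/
def KK : ℝ := 13

end

end Vale.Agent.P363.R.B5
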