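import Vale.Agent.P363.R.B5.h924.ShellDefs

/-! Block B5.7: STATEMENTS of the two parts. -/

namespace Vale.Agent.P363.R.B5

open MeasureTheory Filter Topology
open Vale.Agent.P363.Stmt
open Vale.Agent.P363.H382
open Vale.Agent.P363.H943
open Vale.Agent.P363.R801
open Vale.Agent.P363.R.Sob
open Vale.Agent.P363.R.Top
open scoped ContDiff ENNReal ComplexConjugate

noncomputable section

/-- Part I-A (helper924). -/
theorem sub_hom {lam : ℝ} (hlam : 0 ≤ lam) {Ψ : ElectronState 5} (h : IsGroundState (pot lam) Ψ)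
    (hE : energy (pot lam) Ψ ≤ 0) (R : ℝ) : SubSol (1 / 2) R KK (density Ψ) (fun _ => 0) := sorry

/-- Part I-B (helper924). -/
theorem sub_dif {lam : ℝ} (hlam : 0 ≤ lam) {Ψ Ψ0 : ElectronState 5} (h : IsGroundState (pot lam) Ψ)
    (h0 : IsGroundState (pot 0) Ψ0) (hE : energy (pot lam) Ψ ≤ 0) (R : ℝ) :
    SubSol (1 / 2) R KK (density (dif Ψ Ψ0))
      (hsrc (dif Ψ Ψ0) (src lam (energy (pot lam) Ψ - energy (pot 0) Ψ0) Ψ0)) := sorry

/-- Part II (helper849): assembly with `loc_L2`, `loc_sup`, three nested shells.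
`n₀, n_lam ≤ C₁` on the third shell from `sub_hom` (L¹ → L² → L^∞), hence
`density (dif Ψ Ψ0) ≤ 4 C₁` there and `hsrc ≤ C √(∫|src|²)`, and `sub_dif` + `loc_sup`. -/
theorem b5_shell (Ψ0 : ElectronState 5) (h0 : IsGroundState (pot 0) Ψ0)
    (hE0 : energy (pot 0) Ψ0 = -11 / 8) : ∀ ε > 0, ∃ δ > 0, ∀ lam, 0 < lam → lam < δ →
    ∀ Ψ : ElectronState 5, IsGroundState (pot lam) Ψ → |energy (pot lam) Ψ + 11 / 8| ≤ δ →
      distSq Ψ Ψ0 ≤ δ →
      ∀ᵐ x, 1 ≤ ‖x‖ → ‖x‖ ≤ 20 →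
        |Real.sqrt (density Ψ x) - Real.sqrt (density Ψ0 x)| ≤ ε := sorry

end

end Vale.Agent.P363.R.B5
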