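import Vale.Agent.P363.R.Sob.Basic

/-! Local potential-theoretic bounds used for `b5_shell` (STATEMENTS). -/

namespace Vale.Agent.P363.R.B5

open MeasureTheory Filter Topology
open Vale.Agent.P363.Stmt (R3)
open Vale.Agent.P363.R.Sob
open scoped ContDiff ENNReal

noncomputable section

/-- open shell -/
def sh (r R : ℝ) : Set R3 := {x | r < ‖x‖ ∧ ‖x‖ < R}

/-- the Laplacian of a smooth function -/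
def lap (φ : R3 → ℝ) (x : R3) : ℝ :=
  ∑ k : Fin 3, fderiv ℝ (fun z => fderiv ℝ φ z (EuclideanSpace.single k 1)) x
    (EuclideanSpace.single k 1)

/-- `-Δ n ≤ K n + h` on the shell, tested with squares of test functions. -/
def SubSol (r R K : ℝ) (n h : R3 → ℝ) : Prop :=
  ∀ ψ : R3 → ℝ, Test ψ → (∀ x, x ∉ sh r R → ψ x = 0) →
    -(∫ x, n x * lap (fun y => ψ y ^ 2) x) ≤ ∫ x, ψ x ^ 2 * (K * n x + h x)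

/-- PB. Newtonian potential bound.  Proof: `ψ(y)² = ζ(y)² (|x-y|²+ε²)^{-1/2}`,
`-Δ (|y|²+ε²)^{-1/2} = 3ε²(|y|²+ε²)^{-5/2} ≥ c ε⁻³ 1_{|y|<ε}`, Lebesgue differentiation. -/
theorem pot_bound {r₁ r₂ R₂ R₁ : ℝ} (h0 : 0 ≤ r₁) (h1 : r₁ < r₂) (h3 : R₂ < R₁) (K : ℝ) :
    ∃ C : ℝ, ∀ n h : R3 → ℝ, (∀ᵐ x, 0 ≤ n x) → (∀ᵐ x, 0 ≤ h x) → Integrable n → Integrable h →
      SubSol r₁ R₁ K n h →
      ∀ᵐ x, r₂ ≤ ‖x‖ → ‖x‖ ≤ R₂ → ENNReal.ofReal (n x) ≤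
        ENNReal.ofReal C * ∫⁻ y in sh r₁ R₁, ENNReal.ofReal ((1 + 1 / ‖x - y‖) * (n y + h y)) :=
  sorry

/-- P1. `L¹ → L²`. -/
theorem loc_L2 {r₁ r₂ R₂ R₁ : ℝ} (h0 : 0 ≤ r₁) (h1 : r₁ < r₂) (h3 : R₂ < R₁) (K : ℝ) :
    ∃ C : ℝ, ∀ n h : R3 → ℝ, (∀ᵐ x, 0 ≤ n x) → (∀ᵐ x, 0 ≤ h x) → Integrable n → Integrable h →
      SubSol r₁ R₁ K n h →
      ∫⁻ x in sh r₂ R₂, ENNReal.ofReal (n x ^ 2) ≤
        ENNReal.ofReal C * (∫⁻ x in sh r₁ R₁, ENNReal.ofReal (n x + h x)) ^ 2 := sorry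

/-- P2. `L² → L^∞`. -/
theorem loc_sup {r₁ r₂ R₂ R₁ : ℝ} (h0 : 0 ≤ r₁) (h1 : r₁ < r₂) (h3 : R₂ < R₁) (K : ℝ) :
    ∃ C : ℝ, ∀ n h : R3 → ℝ, (∀ᵐ x, 0 ≤ n x) → (∀ᵐ x, 0 ≤ h x) → Integrable n → Integrable h →
      SubSol r₁ R₁ K n h →
      ∀ᵐ x, x ∈ sh r₂ R₂ → ENNReal.ofReal (n x ^ 2) ≤
        ENNReal.ofReal C * ∫⁻ x in sh r₁ R₁, ENNReal.ofReal ((n x + h x) ^ 2) := sorry

end

end Vale.Agent.P363.R.B5
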